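import Vale.Agent.P054.MathlibUsed
import Vale.Agent.P054.Bdl.B2

/-!
# P054: local pairs, for a set of points with few cells

The pair selection of the first layer for a set on which every `s` ranges realise at most `B`
patterns.
-/

set_option autoImplicit false
set_option linter.all false

open Finset

namespace Vale.Agent.P054.H978

open Vale.Agent.P054K

open scoped Classical in
/-- local pairs for a set on which every `s` ranges realise at most `B` patterns -/
theorem exists_pairs_of (d : ℕ) (P Y : Finset (EuclideanSpace ℝ (Fin d))) (hY : Y ⊆ P)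
    (t x s B : ℕ) (Λ : ℝ) (hΛ : 16 * (Real.log (P.card + 3) + 1) ≤ Λ)
    (ht : ∀ p ∈ Y, (P.image (dist p)).card ≤ t + 1) (hs : 1 ≤ s) (hx : 1 ≤ x)
    (hB : ∀ g : Fin s → (EuclideanSpace ℝ (Fin d) × EuclideanSpace ℝ (Fin d)) × Bool,
      (P.image (fun y => fun k => rng (g k) y)).card ≤ B)
    (h1 : 2 * x * B ≤ P.card) (h1' : 4 * x * (2 * s + 1) ^ 1 ≤ P.card)
    (h2 : 100 * ((t:ℝ) + 1) * Λ / s + 4 ≤ x) :
    ∃ T : Finset (EuclideanSpace ℝ (Fin d) × EuclideanSpace ℝ (Fin d)),
      (∀ π ∈ T, π.1 ∈ P ∧ π.2 ∈ P ∧ π.1 ≠ π.2) ∧ T.card ≤ P.card * x ∧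
      (∀ p ∈ Y, P.card ≤ 4 * (T.filter (fun π => dist p π.1 = dist p π.2)).card) ∧
      (∀ π₀ ∈ T, ((T.filter (fun π => dualVec π ∈ Submodule.span ℝ {dualVec π₀})).card : ℝ)
        ≤ P.card * Λ / s) := by
  have hP : 0 < P.card := by
    have : 0 < 4 * x * (2 * s + 1) ^ 1 := by positivity
    omega
  have hs' : (0:ℝ) < s := by exact_mod_cast hs
  have hx' : (0:ℝ) < x := by exact_mod_cast hx
  set S : Finset ((EuclideanSpace ℝ (Fin d) × EuclideanSpace ℝ (Fin d)) × Bool) :=
    (P ×ˢ P) ×ˢ Finset.univ with hS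
  have hScard : S.card = 2 * P.card ^ 2 := by
    rw [hS, card_product, card_product, Finset.card_univ, Fintype.card_bool]; ring
  have hSne : S.Nonempty := by
    rw [← Finset.card_pos, hScard]; (clear * - hP; positivity)
  obtain ⟨r, X, hXP, hXc, hXd, hr, hsep⟩ := partition P S hSne rng B x s hs hx
    (fun g hg => by
      refine le_trans (le_of_eq ?_) (hB g)
      congr 1) h1 (by
      have h3 : 1 ≤ (2 * s + 1) ^ 1 := Nat.one_le_pow _ _ (by omega)
      calc 4 * x = 4 * x * 1 := by ring
        _ ≤ 4 * x * (2 * s + 1) ^ 1 := Nat.mul_le_mul_left _ h3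
        _ ≤ P.card := h1')
  have hphi := phi_bound P.card x s r 1 le_rfl hx hs Λ hΛ h1' hr
  have hsep2 : ∀ σ ∈ S, ∑ i, sepc rng σ (X i) ≤ (x:ℝ) ^ 2 * (r * Λ / (2 * s)) := by
    intro σ hσ
    refine le_trans (hsep σ hσ) ?_
    apply mul_le_mul_of_nonneg_left _ (by positivity)
    rw [hScard]
    exact hphi
  have hΛ0 : 0 < Λ := by
    have : 0 ≤ Real.log ((P.card:ℝ) + 3) := Real.log_nonneg (by
      have : (0:ℝ) ≤ P.card := by (clear * - hP; positivity)
      linarith only [])
    linarith only [hΛ, this]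
  -- disjointness of the offdiagonals
  have hdis : ∀ i ∈ (Finset.univ : Finset (Fin r)), ∀ j ∈ (Finset.univ : Finset (Fin r)), i ≠ j →
      Disjoint ((X i).offDiag) ((X j).offDiag) := by
    intro i _ j _ hij
    rw [Finset.disjoint_left]
    intro π h h'
    rw [mem_offDiag] at h h'
    exact (Finset.disjoint_left.mp (hXd i j hij)) h.1 h'.1
  have hrx : r * x ≤ P.card := by
    have hbi : (Finset.univ.biUnion X).card = r * x := by
      rw [Finset.card_biUnion (fun k _ l _ hkl => hXd k l hkl)]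
      simp only [hXc, sum_const, card_univ, Fintype.card_fin, smul_eq_mul]
    rw [← hbi]
    apply card_le_card
    intro y hy
    rw [mem_biUnion] at hy
    obtain ⟨k, _, hk⟩ := hy
    exact hXP k hk
  set T := Finset.univ.biUnion (fun i => (X i).offDiag) with hT
  have hTf : ∀ p : (EuclideanSpace ℝ (Fin d) × EuclideanSpace ℝ (Fin d)) → Prop,
      (T.filter p).card = ∑ i, (((X i).offDiag).filter p).card := by
    intro p
    rw [hT, Finset.filter_biUnion, Finset.card_biUnion]
    intro i hi j hj hij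
    exact Finset.disjoint_filter_filter (hdis i hi j hj hij)
  refine ⟨T, ?_, ?_, ?_, ?_⟩
  · intro π hπ
    rw [hT, mem_biUnion] at hπ
    obtain ⟨i, _, hi⟩ := hπ
    rw [mem_offDiag] at hi
    exact ⟨hXP i hi.1, hXP i hi.2.1, hi.2.2⟩
  · rw [hT, Finset.card_biUnion hdis]
    calc ∑ i, (X i).offDiag.card ≤ ∑ _i : Fin r, x * x := by
          apply Finset.sum_le_sum
          intro i _
          rw [offDiag_card, hXc i]
          exact Nat.sub_le _ _
      _ = (r * x) * x := by
          rw [Finset.sum_const, Finset.card_univ, Fintype.card_fin, smul_eq_mul]; ring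
      _ ≤ P.card * x := Nat.mul_le_mul_right x hrx
  · intro p hp
    rw [hTf]
    obtain ⟨z, hzP, hz⟩ := sum_rk P p
    set D : Fin r → ℝ := fun i =>
      (∑ ρ ∈ P.image (dist p), sepc rng ((p, z ρ), true) (X i)) / (x:ℝ) ^ 2 with hD
    -- per class
    have hcl : ∀ i, 3 * (x:ℝ) - 32 * D i - 8 ≤
        ((((X i).offDiag).filter (fun π => dist p π.1 = dist p π.2)).card : ℝ) := by
      intro i
      have hXpos : 0 < (X i).card := by rw [hXc i]; omega
      have h3 : ∑ π ∈ X i ×ˢ X i, (|rk P p π.2 - rk P p π.1| : ℝ) ≤ D i * ((X i).card : ℝ) ^ 2 := by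
        rw [hz (X i), hXc i, hD]
        simp only
        rw [div_mul_cancel₀ _ (by positivity)]
      have h4 := equal_pairs (X i) (rk P p) hXpos (D i) h3
      rw [hXc i] at h4
      set E : ℝ := (((X i ×ˢ X i).filter (fun π => rk P p π.2 = rk P p π.1)).card : ℝ) with hE
      have hD0 : 0 ≤ D i := by
        rw [hD]; simp only
        apply div_nonneg _ (by positivity)
        exact Finset.sum_nonneg (fun ρ _ => sepc_nonneg _ _ _)
      have h5 : 4 * (x:ℝ) - 32 * D i - 8 ≤ E := by
        by_contra hcon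
        push Not at hcon
        have ha : 0 < 2 * (4 * D i + 1) := by linarith only [hD0]
        have h6 := mul_lt_mul_of_pos_left hcon ha
        linarith only [h4, h6, sq_nonneg ((x:ℝ) - 2 * (2 * (4 * D i + 1)))]
      have h6 : ((X i ×ˢ X i).filter (fun π => rk P p π.2 = rk P p π.1)) ⊆
          (((X i).offDiag).filter (fun π => dist p π.1 = dist p π.2)) ∪ (X i).diag := by
        intro π hπ
        rw [mem_filter, mem_product] at hπ
        rw [mem_union, mem_filter, mem_offDiag, mem_diag]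
        by_cases h7 : π.1 = π.2
        · right; exact ⟨hπ.1.1, h7⟩
        · left
          exact ⟨⟨hπ.1.1, hπ.1.2, h7⟩,
            (rk_eq_iff P p π.1 π.2 (hXP i hπ.1.1) (hXP i hπ.1.2)).mp hπ.2⟩
      have h7 := (card_le_card h6).trans (card_union_le _ _)
      rw [diag_card, hXc i] at h7
      have h8 : E ≤ ((((X i).offDiag).filter (fun π => dist p π.1 = dist p π.2)).card : ℝ) + x := by
        rw [hE]; exact_mod_cast h7
      linarith only [h5, h8]
    -- sum over classes
    have hDsum : ∑ i, D i ≤ ((t:ℝ) + 1) * (r * Λ / (2 * s)) := by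
      have h3 : ∑ i, D i = (∑ ρ ∈ P.image (dist p), ∑ i, sepc rng ((p, z ρ), true) (X i))
          / (x:ℝ) ^ 2 := by
        rw [Finset.sum_comm, Finset.sum_div]
      rw [h3, div_le_iff₀ (by positivity)]
      calc ∑ ρ ∈ P.image (dist p), ∑ i, sepc rng ((p, z ρ), true) (X i)
          ≤ ∑ _ρ ∈ P.image (dist p), (x:ℝ) ^ 2 * (r * Λ / (2 * s)) := by
            apply Finset.sum_le_sum
            intro ρ hρ
            apply hsep2
            rw [hS, mem_product, mem_product]
            exact ⟨⟨hY hp, hzP ρ hρ⟩, mem_univ _⟩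
        _ = ((P.image (dist p)).card : ℝ) * ((x:ℝ) ^ 2 * (r * Λ / (2 * s))) := by
            rw [Finset.sum_const, nsmul_eq_mul]
        _ ≤ ((t:ℝ) + 1) * ((x:ℝ) ^ 2 * (r * Λ / (2 * s))) := by
            apply mul_le_mul_of_nonneg_right _ (by (clear * - hs hx hΛ0; positivity))
            exact_mod_cast ht p hp
        _ = ((t:ℝ) + 1) * (r * Λ / (2 * s)) * (x:ℝ) ^ 2 := by ring
    have hsum : (r:ℝ) * x ≤ ∑ i, ((((X i).offDiag).filter (fun π => dist p π.1 = dist p π.2)).card : ℝ) := by
      have h3 := Finset.sum_le_sum (s := Finset.univ) (fun i (_ : i ∈ Finset.univ) => hcl i)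
      have h4 : ∑ i : Fin r, (3 * (x:ℝ) - 32 * D i - 8) = r * (3 * x - 8) - 32 * ∑ i, D i := by
        rw [Finset.sum_sub_distrib, Finset.sum_sub_distrib, Finset.mul_sum]
        simp only [Finset.sum_const, Finset.card_univ, Fintype.card_fin, nsmul_eq_mul]
        ring
      rw [h4] at h3
      refine le_trans ?_ h3
      have h5 : 32 * ∑ i, D i ≤ 0.16 * (r * (x - 4)) := by
        calc 32 * ∑ i, D i ≤ 32 * (((t:ℝ) + 1) * (r * Λ / (2 * s))) := by linarith only [hDsum]
          _ = 0.16 * (r * (100 * ((t:ℝ) + 1) * Λ / s)) := by field_simp; ring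
          _ ≤ 0.16 * (r * (x - 4)) := by
              have : (0:ℝ) ≤ r := by (clear * -; positivity)
              have h6 : 100 * ((t:ℝ) + 1) * Λ / s ≤ x - 4 := by linarith only [h2]
              nlinarith only [h2]
      have h7 : (4:ℝ) ≤ x := by
        have : 0 ≤ 100 * ((t:ℝ) + 1) * Λ / s := by (clear * - hs hΛ0; positivity)
        linarith only [h2, this]
      have h8 : (0:ℝ) ≤ r := by (clear * -; positivity)
      nlinarith only [h5, h7]
    have h9 : (P.card : ℝ) ≤ 4 * (r * x) := by exact_mod_cast hr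
    have h10 : (P.card : ℝ) ≤ 4 * ∑ i, ((((X i).offDiag).filter (fun π => dist p π.1 = dist p π.2)).card : ℝ) := by
      linarith only [hsum, h9]
    exact_mod_cast h10
  · intro π₀ hπ₀
    rw [hT, mem_biUnion] at hπ₀
    obtain ⟨j, _, hj⟩ := hπ₀
    rw [mem_offDiag] at hj
    rw [hTf]
    push_cast
    have hab : π₀.1 ≠ π₀.2 := hj.2.2
    have h3 : (∑ i, (((X i).offDiag.filter
        (fun π => dualVec π ∈ Submodule.span ℝ {dualVec π₀})).card : ℝ)) * x
        ≤ 2 * ((x:ℝ) ^ 2 * (r * Λ / (2 * s))) := by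
      rw [Finset.sum_mul]
      calc ∑ i, (((X i).offDiag.filter
            (fun π => dualVec π ∈ Submodule.span ℝ {dualVec π₀})).card : ℝ) * x
          ≤ ∑ i, 2 * sepc rng (π₀, false) (X i) := by
            apply Finset.sum_le_sum
            intro i _
            have := mirror_count (X i) π₀.1 π₀.2 hab
            rw [hXc i] at this
            exact this
        _ = 2 * ∑ i, sepc rng (π₀, false) (X i) := by rw [Finset.mul_sum]
        _ ≤ 2 * ((x:ℝ) ^ 2 * (r * Λ / (2 * s))) := by
            apply mul_le_mul_of_nonneg_left _ (by norm_num)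
            apply hsep2
            rw [hS, mem_product, mem_product]
            exact ⟨⟨hXP j hj.1, hXP j hj.2.1⟩, mem_univ _⟩
    have h4 : 2 * ((x:ℝ) ^ 2 * (r * Λ / (2 * s))) = ((r * x) * Λ / s) * x := by
      (clear * - hs hx hΛ0; field_simp)
    rw [h4] at h3
    have h5 := le_of_mul_le_mul_right h3 hx'
    refine le_trans h5 ?_
    apply div_le_div_of_nonneg_right _ hs'.le
    apply mul_le_mul_of_nonneg_right _ hΛ0.le
    exact_mod_cast hrx

end Vale.Agent.P054.H978
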