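import Vale.Agent.P054.MathlibUsed
import Vale.Agent.P054.Bdl.B5
import Vale.Agent.P054.BdN.N1
import Vale.Agent.P054.H978.Pairs

/-!
# P054: the position of a point set relative to a rich line
-/

set_option autoImplicit false
set_option linter.all false

open Finset

namespace Vale.Agent.P054.H978

open Vale.Agent.P054K

/-- position relative to the line `x₀ + ℝ u`: coordinate along the line, distance from the line -/
noncomputable def pos {d : ℕ} (x₀ u p : EuclideanSpace ℝ (Fin d)) : EuclideanSpace ℝ (Fin 2) :=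
  WithLp.toLp 2 ![inner ℝ u (p - x₀), ‖p - x₀ - (inner ℝ u (p - x₀)) • u‖]

theorem pos_zero {d : ℕ} (x₀ u p : EuclideanSpace ℝ (Fin d)) :
    pos x₀ u p 0 = inner ℝ u (p - x₀) := rfl

theorem pos_one {d : ℕ} (x₀ u p : EuclideanSpace ℝ (Fin d)) :
    pos x₀ u p 1 = ‖p - x₀ - (inner ℝ u (p - x₀)) • u‖ := rfl

/-- Pythagoras -/
theorem pyth {d : ℕ} (u w : EuclideanSpace ℝ (Fin d)) (hu : ‖u‖ = 1) (y : ℝ) :
    ‖w - y • u‖ ^ 2 = (inner ℝ u w - y) ^ 2 + ‖w - (inner ℝ u w) • u‖ ^ 2 := by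
  rw [norm_sub_sq_real, norm_sub_sq_real, inner_smul_right, inner_smul_right, norm_smul, norm_smul,
    hu, real_inner_comm u w, mul_one, mul_one, Real.norm_eq_abs, Real.norm_eq_abs, sq_abs, sq_abs]
  ring

theorem pos_axis {d : ℕ} (x₀ u : EuclideanSpace ℝ (Fin d)) (hu : ‖u‖ = 1) (y : ℝ) :
    pos x₀ u (x₀ + y • u) 0 = y ∧ pos x₀ u (x₀ + y • u) 1 = 0 := by
  have h1 : inner ℝ u (x₀ + y • u - x₀) = y := by
    rw [add_sub_cancel_left, inner_smul_right, real_inner_self_eq_norm_sq, hu]; ring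
  refine ⟨by rw [pos_zero, h1], ?_⟩
  rw [pos_one, h1, add_sub_cancel_left, sub_self, norm_zero]

theorem dist_pos {d : ℕ} (x₀ u : EuclideanSpace ℝ (Fin d)) (hu : ‖u‖ = 1) (y : ℝ)
    (p : EuclideanSpace ℝ (Fin d)) :
    dist (pos x₀ u (x₀ + y • u)) (pos x₀ u p) = dist (x₀ + y • u) p := by
  obtain ⟨h0, h1⟩ := pos_axis x₀ u hu y
  have h2 : dist (pos x₀ u (x₀ + y • u)) (pos x₀ u p) ^ 2 = dist (x₀ + y • u) p ^ 2 := by
    rw [EuclideanSpace.dist_eq, Real.sq_sqrt (by positivity), Fin.sum_univ_two, h0, h1,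
      Real.dist_eq, Real.dist_eq, sq_abs, sq_abs, pos_zero, pos_one, dist_comm (x₀ + y • u) p,
      dist_eq_norm]
    have h3 : p - (x₀ + y • u) = (p - x₀) - y • u := by abel
    rw [h3, pyth u (p - x₀) hu y]
    ring
  exact (sq_eq_sq₀ dist_nonneg dist_nonneg).mp h2

/-- a pin on the axis is equidistant from at most... : it is determined by the pair -/
theorem pin_unique (v v' a b : EuclideanSpace ℝ (Fin 2)) (hv : v 1 = 0) (hv' : v' 1 = 0)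
    (ha : 0 ≤ a 1) (hb : 0 ≤ b 1) (hab : a ≠ b) (h : dist v a = dist v b)
    (h' : dist v' a = dist v' b) : v = v' := by
  have key : ∀ w : EuclideanSpace ℝ (Fin 2), w 1 = 0 → dist w a = dist w b →
      2 * w 0 * (b 0 - a 0) = (b 0 ^ 2 + b 1 ^ 2) - (a 0 ^ 2 + a 1 ^ 2) := by
    intro w hw hd
    have h1 : dist w a ^ 2 = dist w b ^ 2 := by rw [hd]
    rw [EuclideanSpace.dist_eq, EuclideanSpace.dist_eq, Real.sq_sqrt (by positivity),
      Real.sq_sqrt (by positivity), Fin.sum_univ_two, Fin.sum_univ_two, Real.dist_eq, Real.dist_eq,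
      Real.dist_eq, Real.dist_eq, sq_abs, sq_abs, sq_abs, sq_abs, hw] at h1
    linarith only [h1]
  have h1 := key v hv h
  have h2 := key v' hv' h'
  have hne : b 0 - a 0 ≠ 0 := by
    intro h0
    rw [h0, mul_zero] at h1
    have hab0 : a 0 = b 0 := by linarith only [h0]
    have h3 : a 1 ^ 2 = b 1 ^ 2 := by rw [hab0] at h1; linarith only [h1]
    have h4 : a 1 = b 1 := (sq_eq_sq₀ ha hb).mp h3
    apply hab
    ext i
    fin_cases i
    · exact hab0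
    · exact h4
  have h3 : v 0 = v' 0 := by
    have h4 : (2 * (b 0 - a 0)) * v 0 = (2 * (b 0 - a 0)) * v' 0 := by linarith only [h1, h2]
    exact mul_left_cancel₀ (mul_ne_zero two_ne_zero hne) h4
  ext i
  fin_cases i
  · exact h3
  · exact hv.trans hv'.symm

open scoped Classical in
/-- few positions relative to a line with many pins -/
theorem axis_count (W Y : Finset (EuclideanSpace ℝ (Fin 2))) (hYW : Y ⊆ W)
    (hW : ∀ w ∈ W, 0 ≤ w 1) (hY0 : ∀ v ∈ Y, v 1 = 0) (t x s : ℕ) (Λ : ℝ)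
    (hΛ : 16 * (Real.log (W.card + 3) + 1) ≤ Λ)
    (ht : ∀ v ∈ Y, (W.image (dist v)).card ≤ t + 1) (hs : 1 ≤ s) (hx : 1 ≤ x)
    (h1 : 4 * x * (2 * s + 1) ^ 2 ≤ W.card) (h2 : 100 * ((t:ℝ) + 1) * Λ / s + 4 ≤ x) :
    Y.card ≤ 4 * x := by
  have hB : ∀ g : Fin s → (EuclideanSpace ℝ (Fin 2) × EuclideanSpace ℝ (Fin 2)) × Bool,
      (W.image (fun y => fun k => rng (g k) y)).card ≤ 2 * (2 * s + 1) ^ 2 := by
    intro g
    have h := quad_cells 2 (Fin s) (fun k => if (g k).2 then (1:ℝ) else 0)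
      (fun k => if (g k).2 then (-2:ℝ) • (g k).1.1 else (2:ℝ) • ((g k).1.1 - (g k).1.2))
      (fun k => if (g k).2 then ‖(g k).1.1‖ ^ 2 - dist (g k).1.1 (g k).1.2 ^ 2
        else -(‖(g k).1.1‖ ^ 2 - ‖(g k).1.2‖ ^ 2)) W
    rw [Fintype.card_fin] at h
    refine le_trans (le_of_eq ?_) h
    congr 1
  have h1' : 4 * x * (2 * s + 1) ^ 1 ≤ W.card := by
    refine le_trans (Nat.mul_le_mul_left _ ?_) h1
    exact Nat.pow_le_pow_right (by omega) (by norm_num)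
  obtain ⟨T, hT1, hT2, hT3, -⟩ := exists_pairs_of 2 W Y hYW t x s (2 * (2 * s + 1) ^ 2) Λ hΛ ht hs
    hx hB (by
      calc 2 * x * (2 * (2 * s + 1) ^ 2) = 4 * x * (2 * s + 1) ^ 2 := by ring
        _ ≤ W.card := h1) h1' h2
  have hWpos : 0 < W.card := by
    have : 0 < 4 * x * (2 * s + 1) ^ 2 := by positivity
    omega
  have h3 : ∑ v ∈ Y, W.card ≤ ∑ v ∈ Y, 4 * (T.filter (fun π => dist v π.1 = dist v π.2)).card :=
    Finset.sum_le_sum hT3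
  rw [Finset.sum_const, smul_eq_mul, ← Finset.mul_sum] at h3
  have h4 : ∑ v ∈ Y, (T.filter (fun π => dist v π.1 = dist v π.2)).card
      = ∑ π ∈ T, (Y.filter (fun v => dist v π.1 = dist v π.2)).card := by
    simp only [Finset.card_filter]
    exact Finset.sum_comm
  have h5 : ∑ π ∈ T, (Y.filter (fun v => dist v π.1 = dist v π.2)).card ≤ T.card := by
    have h6 : ∀ π ∈ T, (Y.filter (fun v => dist v π.1 = dist v π.2)).card ≤ 1 := by
      intro π hπ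
      rw [Finset.card_le_one]
      intro v hv v' hv'
      rw [mem_filter] at hv hv'
      obtain ⟨i1, i2, i3⟩ := hT1 π hπ
      exact pin_unique v v' π.1 π.2 (hY0 v hv.1) (hY0 v' hv'.1) (hW _ i1) (hW _ i2) i3 hv.2 hv'.2
    calc _ ≤ ∑ _π ∈ T, 1 := Finset.sum_le_sum h6
      _ = T.card := by simp
  have h6 : W.card * Y.card ≤ W.card * (4 * x) := by
    calc W.card * Y.card = Y.card * W.card := mul_comm _ _
      _ ≤ 4 * T.card := by rw [h4] at h3; omega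
      _ ≤ 4 * (W.card * x) := Nat.mul_le_mul_left _ hT2
      _ = W.card * (4 * x) := by ring
  exact Nat.le_of_mul_le_mul_left h6 hWpos

open scoped Classical in
theorem axis_bound (ρ Cn D : ℝ) (hρ : 0 < ρ) (hρ1 : ρ ≤ 1 / 10) (hCn : 0 ≤ Cn) :
    ∃ T0 : ℝ, 1 ≤ T0 ∧
    ∀ t : ℕ, T0 ≤ t → ∀ W Y : Finset (EuclideanSpace ℝ (Fin 2)), Y ⊆ W → (∀ w ∈ W, 0 ≤ w 1) →
      (∀ v ∈ Y, v 1 = 0) → (∀ v ∈ Y, (W.image (dist v)).card ≤ t + 1) →
      (t:ℝ) ^ (1 - ρ) ≤ Y.card → (W.card : ℝ) ≤ Cn * (t:ℝ) ^ D →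
      (W.card : ℝ) ≤ (t:ℝ) ^ (1 + 6 * ρ) := by
  obtain ⟨T1, hT1, hev1⟩ := ev_log |D| ρ hρ
  obtain ⟨T2, hT2, hev2⟩ := ev_rpow (16 * (Real.log (Cn + 4) + 1) * 5) 0 ρ hρ
  obtain ⟨T3, hT3, hev3⟩ := ev_rpow 12800 (1 - 2 * ρ) (1 - ρ) (by linarith only [hρ])
  obtain ⟨T4, hT4, hev4⟩ := ev_rpow 64 0 (1 - ρ) (by linarith only [hρ1])
  obtain ⟨T5, hT5, hev5⟩ := ev_rpow 25 (1 + 5 * ρ) (1 + 6 * ρ) (by linarith only [hρ])
  refine ⟨max (max (max T1 T2) (max T3 T4)) T5, ?_, ?_⟩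
  · exact hT1.trans ((le_max_left _ _).trans ((le_max_left _ _).trans (le_max_left _ _)))
  intro t ht W Y hYW hW hY0 hpin hYc hWn
  have hT1' : T1 ≤ t := ((le_max_left _ _).trans ((le_max_left _ _).trans (le_max_left _ _))).trans ht
  have hT2' : T2 ≤ t := ((le_max_right _ _).trans ((le_max_left _ _).trans (le_max_left _ _))).trans ht
  have hT3' : T3 ≤ t := ((le_max_left _ _).trans ((le_max_right _ _).trans (le_max_left _ _))).trans ht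
  have hT4' : T4 ≤ t := ((le_max_right _ _).trans ((le_max_right _ _).trans (le_max_left _ _))).trans ht
  have hT5' : T5 ≤ t := (le_max_right _ _).trans ht
  have hT : (1:ℝ) ≤ t := hT1.trans hT1'
  have hT0 : (0:ℝ) < t := by linarith only [hT]
  by_contra hcon
  push Not at hcon
  have f1 := hev1 t hT1'
  have f2 := hev2 t hT2'
  have f3 := hev3 t hT3'
  have f4 := hev4 t hT4'
  have f5 := hev5 t hT5'
  rw [Real.rpow_zero, mul_one] at f2 f4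
  -- the logarithm
  have hΛ : 16 * (Real.log (W.card + 3) + 1) ≤ (t:ℝ) ^ ρ := by
    have hD1 : 1 ≤ (t:ℝ) ^ |D| := Real.one_le_rpow hT (abs_nonneg D)
    have hD2 : (t:ℝ) ^ D ≤ (t:ℝ) ^ |D| := Real.rpow_le_rpow_of_exponent_le hT (le_abs_self D)
    have h1 : (W.card : ℝ) + 3 ≤ (Cn + 4) * (7 * (t:ℝ) ^ |D|) := by
      have h2 : (W.card : ℝ) ≤ Cn * (t:ℝ) ^ |D| := hWn.trans (mul_le_mul_of_nonneg_left hD2 hCn)
      have h3 : 0 ≤ Cn * (t:ℝ) ^ |D| := mul_nonneg hCn (by linarith only [hD1])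
      nlinarith only [h2, h3, hD1, hCn]
    have h2 : Real.log ((W.card : ℝ) + 3) ≤ Real.log (Cn + 4) + Real.log (7 * (t:ℝ) ^ |D|) := by
      rw [← Real.log_mul (by linarith only [hCn]) (by positivity)]
      exact Real.log_le_log (by positivity) h1
    have h3 : 0 ≤ Real.log (Cn + 4) := Real.log_nonneg (by linarith only [hCn])
    have h4 : 0 ≤ Real.log (7 * (t:ℝ) ^ |D|) := Real.log_nonneg (by linarith only [hD1])
    have h5 : 16 * (Real.log (7 * (t:ℝ) ^ |D|)) + 16 ≤ 16 / 20 * (t:ℝ) ^ ρ := by linarith only [f1]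
    linarith only [h2, h3, h5, f2]
  have hp1 : 0 < (t:ℝ) ^ (1 - ρ) := Real.rpow_pos_of_pos hT0 _
  have hp3 : 1 ≤ (t:ℝ) ^ (3 * ρ) := Real.one_le_rpow hT (by linarith only [hρ])
  have hpρ : 0 < (t:ℝ) ^ ρ := Real.rpow_pos_of_pos hT0 _
  obtain ⟨s, hs⟩ : ∃ s : ℕ, s = ⌈(t:ℝ) ^ (3 * ρ)⌉₊ := ⟨_, rfl⟩
  have hs1 : (t:ℝ) ^ (3 * ρ) ≤ s := by rw [hs]; exact Nat.le_ceil _
  have hs2 : (s:ℝ) ≤ 2 * (t:ℝ) ^ (3 * ρ) := by
    have := Nat.ceil_lt_add_one (show 0 ≤ (t:ℝ) ^ (3 * ρ) by linarith only [hp3])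
    rw [← hs] at this
    linarith only [hp3, this]
  have hs0 : (0:ℝ) < s := by linarith only [hs1, hp3]
  have hspos : 1 ≤ s := by
    have : (1:ℝ) ≤ s := hp3.trans hs1
    exact_mod_cast this
  obtain ⟨x, hx⟩ : ∃ x : ℕ, x = ⌊(t:ℝ) ^ (1 - ρ) / 8⌋₊ := ⟨_, rfl⟩
  have hx1 : (x:ℝ) ≤ (t:ℝ) ^ (1 - ρ) / 8 := by rw [hx]; exact Nat.floor_le (by linarith only [hp1])
  have hx2 : (t:ℝ) ^ (1 - ρ) / 8 < x + 1 := by rw [hx]; exact Nat.lt_floor_add_one _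
  have hxpos : 1 ≤ x := by
    have : (0:ℝ) < x := by linarith only [hx2, f4]
    exact_mod_cast this
  have c2 : 100 * ((t:ℝ) + 1) * (t:ℝ) ^ ρ / s + 4 ≤ x := by
    have h1 : 100 * ((t:ℝ) + 1) * (t:ℝ) ^ ρ / s ≤ 200 * (t:ℝ) ^ (1 - 2 * ρ) := by
      rw [div_le_iff₀ hs0]
      have h2 : (t:ℝ) ^ (1 - 2 * ρ) * (t:ℝ) ^ (3 * ρ) = t * (t:ℝ) ^ ρ := by
        rw [← Real.rpow_add hT0]
        have : (1:ℝ) - 2 * ρ + 3 * ρ = 1 + ρ := by ring
        rw [this, Real.rpow_add hT0, Real.rpow_one]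
      have h3 : (t:ℝ) ^ ρ ≤ t * (t:ℝ) ^ ρ := le_mul_of_one_le_left hpρ.le hT
      have h4 : 0 < (t:ℝ) ^ (1 - 2 * ρ) := Real.rpow_pos_of_pos hT0 _
      calc 100 * ((t:ℝ) + 1) * (t:ℝ) ^ ρ ≤ 200 * (t * (t:ℝ) ^ ρ) := by linarith only [h3]
        _ = 200 * (t:ℝ) ^ (1 - 2 * ρ) * (t:ℝ) ^ (3 * ρ) := by rw [← h2]; ring
        _ ≤ 200 * (t:ℝ) ^ (1 - 2 * ρ) * s :=
            mul_le_mul_of_nonneg_left hs1 (by linarith only [h4])
    linarith only [h1, f3, f4, hx2]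
  have c1 : 4 * x * (2 * s + 1) ^ 2 ≤ W.card := by
    have h1 : (4:ℝ) * x * (2 * s + 1) ^ 2 ≤ W.card := by
      have h2 : (2:ℝ) * s + 1 ≤ 5 * (t:ℝ) ^ (3 * ρ) := by linarith only [hs2, hp3]
      have h3 : ((2:ℝ) * s + 1) ^ 2 ≤ (5 * (t:ℝ) ^ (3 * ρ)) ^ 2 :=
        pow_le_pow_left₀ (by linarith only [hs0]) h2 2
      have h4 : (5 * (t:ℝ) ^ (3 * ρ)) ^ 2 = 25 * (t:ℝ) ^ (6 * ρ) := by
        rw [mul_pow, ← Real.rpow_natCast ((t:ℝ) ^ (3 * ρ)) 2, ← Real.rpow_mul hT0.le]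
        congr 1
        · norm_num
        · congr 1; push_cast; ring
      rw [h4] at h3
      have h5 : (t:ℝ) ^ (1 - ρ) * (t:ℝ) ^ (6 * ρ) = (t:ℝ) ^ (1 + 5 * ρ) := by
        rw [← Real.rpow_add hT0]; congr 1; ring
      have h6 : 0 ≤ ((2:ℝ) * s + 1) ^ 2 := sq_nonneg _
      have h7 : (0:ℝ) < (t:ℝ) ^ (1 + 5 * ρ) := Real.rpow_pos_of_pos hT0 _
      calc (4:ℝ) * x * (2 * s + 1) ^ 2 ≤ ((t:ℝ) ^ (1 - ρ) / 2) * (25 * (t:ℝ) ^ (6 * ρ)) :=
            mul_le_mul (by linarith only [hx1]) h3 h6 (by linarith only [hp1])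
        _ = 25 / 2 * ((t:ℝ) ^ (1 - ρ) * (t:ℝ) ^ (6 * ρ)) := by ring
        _ = 25 / 2 * (t:ℝ) ^ (1 + 5 * ρ) := by rw [h5]
        _ ≤ W.card := by linarith only [f5, h7, hcon]
    exact_mod_cast h1
  have hfin := axis_count W Y hYW hW hY0 t x s ((t:ℝ) ^ ρ) hΛ hpin hspos hxpos c1 c2
  have hfin' : (Y.card : ℝ) ≤ 4 * x := by exact_mod_cast hfin
  linarith only [hfin', hx1, hYc, hp1]

end Vale.Agent.P054.H978
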