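import Vale.Agent.P054.MathlibUsed
import Vale.Agent.P054.Bdl.B2
import Vale.Agent.P054.BdN.N7

/-!
# P054: cells on a hypersurface

On the zero set of a nonzero polynomial of degree at most `e` in `d` variables, `s` ranges realise
at most `6 * 50 ^ (d - 1) * e ^ (2 d - 1) * s ^ (d - 1)` patterns.
-/

set_option autoImplicit false
set_option linter.all false

open Finset MvPolynomial

namespace Vale.Agent.P054.H978

/-- value of a homogeneous polynomial at a unit vector -/
theorem eval_single_homogeneous {d n : ℕ} (g : MvPolynomial (Fin d) ℝ) (hg : g.IsHomogeneous n)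
    (i0 : Fin d) : eval (Pi.single i0 (1:ℝ)) g = coeff (Finsupp.single i0 n) g := by
  classical
  rw [eval_eq']
  rw [Finset.sum_eq_single (Finsupp.single i0 n)]
  · rw [Finset.prod_eq_one, mul_one]
    intro i _
    by_cases h : i = i0
    · subst h; simp
    · simp [Finsupp.single_apply, Ne.symm h]
  · intro m hm hne
    have hdeg : ∑ i, m i = n := by
      have h1 := hg (mem_support_iff.mp hm)
      rw [Finsupp.weight_apply, Finsupp.sum_fintype _ _ (by simp)] at h1
      simpa using h1
    have hex : ∃ i, i ≠ i0 ∧ m i ≠ 0 := by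
      by_contra hcon
      push Not at hcon
      apply hne
      ext i
      by_cases h : i = i0
      · subst h
        rw [Finsupp.single_eq_same, ← hdeg, Finset.sum_eq_single i (fun j _ hj => hcon j hj)
          (fun h => absurd (Finset.mem_univ _) h)]
      · rw [hcon i h, Finsupp.single_apply, if_neg (Ne.symm h)]
    obtain ⟨i, hi, hmi⟩ := hex
    rw [Finset.prod_eq_zero (Finset.mem_univ i), mul_zero]
    rw [Pi.single_eq_of_ne hi, zero_pow hmi]
  · intro h
    rw [notMem_support_iff.mp h, zero_mul]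

/-- a linear change of the variables -/
noncomputable def rot {d : ℕ} (b : Fin d → Fin d → ℝ) (f : MvPolynomial (Fin d) ℝ) :
    MvPolynomial (Fin d) ℝ := aeval (fun i => ∑ j, C (b j i) * X j) f

theorem eval_rot {d : ℕ} (b : Fin d → Fin d → ℝ) (f : MvPolynomial (Fin d) ℝ) (x : Fin d → ℝ) :
    eval x (rot b f) = eval (fun i => ∑ j, b j i * x j) f := by
  unfold rot
  rw [aeval_def, algebraMap_eq, eval₂_comp_left (eval x)]
  rw [eval₂_eq', eval_eq']
  apply Finset.sum_congr rfl
  intro m _
  simp

theorem rot_homogeneous {d n : ℕ} (b : Fin d → Fin d → ℝ) (f : MvPolynomial (Fin d) ℝ)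
    (hf : f.IsHomogeneous n) : (rot b f).IsHomogeneous n := by
  unfold rot
  have h := hf.aeval (fun i => ∑ j, C (b j i) * X j) (n := 1) (fun i => by
    apply IsHomogeneous.sum
    intro j _
    simpa using (isHomogeneous_C (Fin d) (b j i)).mul (isHomogeneous_X ℝ j))
  simpa using h

theorem rot_sum {d : ℕ} (b : Fin d → Fin d → ℝ) (f : MvPolynomial (Fin d) ℝ) :
    rot b f = ∑ k ∈ Finset.range (f.totalDegree + 1), rot b (homogeneousComponent k f) := by
  conv_lhs => rw [← sum_homogeneousComponent f]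
  unfold rot
  rw [map_sum]

theorem totalDegree_rot {d : ℕ} (b : Fin d → Fin d → ℝ) (f : MvPolynomial (Fin d) ℝ) :
    (rot b f).totalDegree ≤ f.totalDegree := by
  rw [rot_sum]
  refine totalDegree_finsetSum_le ?_
  intro k hk
  rw [Finset.mem_range] at hk
  refine ((rot_homogeneous b _ (homogeneousComponent_isHomogeneous k f)).totalDegree_le).trans ?_
  omega

/-- the top pure power after the change of variables -/
theorem coeff_rot {d : ℕ} (b : Fin d → Fin d → ℝ) (f : MvPolynomial (Fin d) ℝ) (i0 : Fin d) :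
    coeff (Finsupp.single i0 f.totalDegree) (rot b f) =
      eval (b i0) (homogeneousComponent f.totalDegree f) := by
  classical
  rw [rot_sum, coeff_sum, Finset.sum_eq_single f.totalDegree]
  · rw [← eval_single_homogeneous _ (rot_homogeneous b _
      (homogeneousComponent_isHomogeneous f.totalDegree f)), eval_rot]
    have h1 : (fun i => ∑ j, b j i * (Pi.single i0 (1:ℝ) : Fin d → ℝ) j) = b i0 := by
      funext i
      rw [Finset.sum_eq_single i0]
      · simp
      · intro j _ hj
        simp [Pi.single_eq_of_ne hj]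
      · simp
    rw [h1]
  · intro k _ hk
    apply (rot_homogeneous b _ (homogeneousComponent_isHomogeneous k f)).coeff_eq_zero
    rw [Finsupp.degree_single]
    exact Ne.symm hk
  · intro h
    exact absurd (Finset.mem_range.mpr (Nat.lt_succ_self _)) h

/-- a homogeneous nonzero polynomial of positive degree does not vanish at some unit vector -/
theorem exists_unit {d n : ℕ} (hn : 1 ≤ n) (g : MvPolynomial (Fin d) ℝ) (hg : g.IsHomogeneous n)
    (hg0 : g ≠ 0) : ∃ u : EuclideanSpace ℝ (Fin d), ‖u‖ = 1 ∧ eval (fun i => u i) g ≠ 0 := by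
  obtain ⟨x, hx⟩ : ∃ x : Fin d → ℝ, eval x g ≠ 0 := by
    by_contra hcon
    push Not at hcon
    exact hg0 (MvPolynomial.funext (fun x => by rw [hcon x, map_zero]))
  set v : EuclideanSpace ℝ (Fin d) := WithLp.toLp 2 x with hv
  have hv0 : v ≠ 0 := by
    intro h
    apply hx
    have h1 : x = 0 := by
      have h2 := congrArg (fun w : EuclideanSpace ℝ (Fin d) => (w : Fin d → ℝ)) h
      funext i
      have h3 := congrFun h2 i
      simpa [hv] using h3
    rw [h1, eval_eq']
    apply Finset.sum_eq_zero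
    intro m hm
    have hdeg : ∑ i, m i = n := by
      have h1 := hg (mem_support_iff.mp hm)
      rw [Finsupp.weight_apply, Finsupp.sum_fintype _ _ (by simp)] at h1
      simpa using h1
    have hex : ∃ i, m i ≠ 0 := by
      by_contra hcon
      push Not at hcon
      rw [Finset.sum_eq_zero (fun i _ => hcon i)] at hdeg
      omega
    obtain ⟨i, hi⟩ := hex
    rw [Finset.prod_eq_zero (Finset.mem_univ i), mul_zero]
    simp [hi]
  have hvn : ‖v‖ ≠ 0 := norm_ne_zero_iff.mpr hv0
  refine ⟨‖v‖⁻¹ • v, ?_, ?_⟩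
  · rw [norm_smul, norm_inv, norm_norm, inv_mul_cancel₀ hvn]
  · have h1 : (fun i => (‖v‖⁻¹ • v) i) = ‖v‖⁻¹ • x := by
      funext i
      simp [hv]
    rw [h1]
    have h2 : eval (‖v‖⁻¹ • x) g = ‖v‖⁻¹ ^ n * eval x g := by
      rw [eval_eq', eval_eq', Finset.mul_sum]
      apply Finset.sum_congr rfl
      intro m hm
      have hdeg : ∑ i, m i = n := by
        have h1 := hg (mem_support_iff.mp hm)
        rw [Finsupp.weight_apply, Finsupp.sum_fintype _ _ (by simp)] at h1
        simpa using h1
      rw [← hdeg, ← Finset.prod_pow_eq_pow_sum]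
      simp only [Pi.smul_apply, smul_eq_mul, mul_pow]
      rw [Finset.prod_mul_distrib]
      ring
    rw [h2]
    exact mul_ne_zero (pow_ne_zero _ (inv_ne_zero hvn)) hx

/-- an orthonormal basis with a given first vector -/
theorem exists_basis {d : ℕ} (i0 : Fin d) (u : EuclideanSpace ℝ (Fin d)) (hu : ‖u‖ = 1) :
    ∃ b : OrthonormalBasis (Fin d) ℝ (EuclideanSpace ℝ (Fin d)), b i0 = u := by
  have hv : Orthonormal ℝ (({i0} : Set (Fin d)).domRestrict
      (fun _ : Fin d => u)) := by
    constructor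
    · intro i; exact hu
    · intro i j hij
      exact absurd (Subsingleton.elim i j) hij
  obtain ⟨b, hb⟩ := hv.exists_orthonormalBasis_extension_of_card_eq (by simp)
  exact ⟨b, hb i0 (Set.mem_singleton _)⟩

/-- the coordinates in the basis -/
theorem eval_coords {d : ℕ} (b : OrthonormalBasis (Fin d) ℝ (EuclideanSpace ℝ (Fin d)))
    (f : MvPolynomial (Fin d) ℝ) (p : EuclideanSpace ℝ (Fin d)) :
    eval (fun j => b.repr p j) (rot (fun j i => b j i) f) = eval (fun i => p i) f := by
  rw [eval_rot]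
  congr 2
  funext i
  have h1 := b.sum_repr p
  have h2 := congrArg (fun w : EuclideanSpace ℝ (Fin d) => w i) h1
  simp only at h2
  rw [← h2]
  simp [mul_comm]

/-- a quadratic range as a polynomial in the coordinates of the basis `b` -/
noncomputable def rpoly {d : ℕ} (b : OrthonormalBasis (Fin d) ℝ (EuclideanSpace ℝ (Fin d)))
    (α : ℝ) (β : EuclideanSpace ℝ (Fin d)) (γ : ℝ) : MvPolynomial (Fin d) ℝ :=
  C α * ∑ i, X i ^ 2 + ∑ i, C (b.repr β i) * X i + C γ

theorem eval_rpoly {d : ℕ} (b : OrthonormalBasis (Fin d) ℝ (EuclideanSpace ℝ (Fin d)))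
    (α : ℝ) (β : EuclideanSpace ℝ (Fin d)) (γ : ℝ) (p : EuclideanSpace ℝ (Fin d)) :
    eval (fun j => b.repr p j) (rpoly b α β γ) = α * ‖p‖ ^ 2 + inner ℝ β p + γ := by
  unfold rpoly
  have h1 : ‖p‖ ^ 2 = ∑ i, (b.repr p i) ^ 2 := by
    rw [← EuclideanSpace.real_norm_sq_eq, LinearIsometryEquiv.norm_map]
  have h2 : inner ℝ β p = ∑ i, b.repr β i * b.repr p i := by
    rw [← b.repr.inner_map_map β p, PiLp.inner_apply]
    apply Finset.sum_congr rfl
    intro i _
    simp [mul_comm]
  rw [h1, h2]
  simp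

theorem totalDegree_rpoly {d : ℕ} (b : OrthonormalBasis (Fin d) ℝ (EuclideanSpace ℝ (Fin d)))
    (α : ℝ) (β : EuclideanSpace ℝ (Fin d)) (γ : ℝ) : (rpoly b α β γ).totalDegree ≤ 2 := by
  unfold rpoly
  refine (totalDegree_add _ _).trans (max_le ((totalDegree_add _ _).trans (max_le ?_ ?_)) ?_)
  · refine (totalDegree_mul _ _).trans ?_
    rw [totalDegree_C, zero_add]
    refine totalDegree_finsetSum_le ?_
    intro i _
    refine (totalDegree_pow _ _).trans ?_
    rw [totalDegree_X]
  · refine totalDegree_finsetSum_le ?_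
    intro i _
    refine (totalDegree_mul _ _).trans ?_
    rw [totalDegree_C, totalDegree_X]
    norm_num
  · rw [totalDegree_C]
    norm_num

theorem top_ne_zero {d : ℕ} (f : MvPolynomial (Fin d) ℝ) (hf : f ≠ 0) :
    homogeneousComponent f.totalDegree f ≠ 0 := by
  have hs : f.support.Nonempty := by
    rw [Finset.nonempty_iff_ne_empty]
    intro h
    exact hf (support_eq_empty.mp h)
  obtain ⟨m, hm, hm2⟩ := Finset.exists_mem_eq_sup f.support hs (fun m => m.degree)
  intro h
  have h1 := coeff_homogeneousComponent f.totalDegree f m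
  have h2 : m.degree = f.totalDegree := by
    rw [totalDegree]
    exact hm2.symm
  rw [h, coeff_zero, if_pos h2] at h1
  exact (mem_support_iff.mp hm) h1.symm

/-- patterns of ranges on a hypersurface -/
theorem cells (d : ℕ) (hd : 1 ≤ d) (e : ℕ) (he1 : 1 ≤ e) (f : MvPolynomial (Fin d) ℝ) (hf : f ≠ 0)
    (he : f.totalDegree ≤ e) (P : Finset (EuclideanSpace ℝ (Fin d)))
    (hP : ∀ p ∈ P, eval (fun i => p i) f = 0) (s : ℕ) (hs : 1 ≤ s)
    (g : Fin s → (EuclideanSpace ℝ (Fin d) × EuclideanSpace ℝ (Fin d)) × Bool) :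
    open scoped Classical in
    (P.image (fun y => fun k => Vale.Agent.P054K.rng (g k) y)).card ≤
      6 * 50 ^ (d - 1) * e ^ (2 * d - 1) * s ^ (d - 1) := by
  classical
  rcases P.eq_empty_or_nonempty with hPe | ⟨p₀, hp₀⟩
  · subst hPe; simp
  rcases Nat.eq_zero_or_pos f.totalDegree with h0 | hn0
  · exfalso
    have h1 := totalDegree_eq_zero_iff_eq_C.mp h0
    have h2 := hP p₀ hp₀
    rw [h1, eval_C] at h2
    rw [h2, map_zero] at h1
    exact hf h1
  set n0 := f.totalDegree with hn0def
  obtain ⟨u, hu1, hu2⟩ := exists_unit hn0 _ (homogeneousComponent_isHomogeneous n0 f)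
    (top_ne_zero f hf)
  set i0 : Fin d := ⟨0, by omega⟩ with hi0
  obtain ⟨b, hb⟩ := exists_basis i0 u hu1
  set F' := rot (fun j i => b j i) f with hF'
  set c : ℝ := coeff (Finsupp.single i0 n0) F' with hc
  have hc0 : c ≠ 0 := by
    have h1 := coeff_rot (fun j i => b j i) f i0
    rw [hc, hF', hn0def, h1, hb]
    exact hu2
  set h : MvPolynomial (Fin d) ℝ := X i0 ^ n0 - C c⁻¹ * F' with hh
  have hdegh : h.totalDegree ≤ n0 := by
    refine (totalDegree_sub _ _).trans (max_le ?_ ?_)
    · rw [totalDegree_X_pow]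
    · refine (totalDegree_mul _ _).trans ?_
      rw [totalDegree_C, zero_add]
      exact totalDegree_rot _ _
  have hch : coeff (Finsupp.single i0 n0) h = 0 := by
    rw [hh, coeff_sub, coeff_C_mul, ← hc, X_pow_eq_monomial, coeff_monomial, if_pos rfl,
      inv_mul_cancel₀ hc0, sub_self]
  have hsupp : ∀ m ∈ h.support, m i0 < n0 ∧ ∑ i, m i ≤ n0 := by
    intro m hm
    have hsum : ∑ i, m i ≤ n0 := by
      have h1 := le_totalDegree hm
      rw [Finsupp.sum_fintype _ _ (fun _ => rfl)] at h1
      exact h1.trans hdegh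
    refine ⟨?_, hsum⟩
    by_contra hcon
    push Not at hcon
    have hi : ∀ i, i ≠ i0 → m i = 0 := by
      intro i hi
      have h1 : m i + m i0 ≤ ∑ i, m i := by
        have h2 : ∑ j ∈ ({i, i0} : Finset (Fin d)), m j ≤ ∑ j, m j :=
          Finset.sum_le_sum_of_subset (Finset.subset_univ _)
        rwa [Finset.sum_pair hi] at h2
      omega
    have h2 : m i0 = n0 := by
      have h3 : m i0 ≤ ∑ i, m i := Finset.single_le_sum (f := fun i => m i)
        (fun _ _ => Nat.zero_le _) (Finset.mem_univ i0)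
      omega
    have hm2 : m = Finsupp.single i0 n0 := by
      ext i
      by_cases hii : i = i0
      · rw [hii, h2, Finsupp.single_eq_same]
      · rw [hi i hii, Finsupp.single_apply, if_neg (Ne.symm hii)]
    rw [mem_support_iff, hm2] at hm
    exact hm hch
  -- the ranges as polynomials
  set α : Fin s → ℝ := fun k => if (g k).2 then (1:ℝ) else 0 with hα
  set β : Fin s → EuclideanSpace ℝ (Fin d) := fun k =>
    if (g k).2 then (-2:ℝ) • (g k).1.1 else (2:ℝ) • ((g k).1.1 - (g k).1.2) with hβ
  set γ : Fin s → ℝ := fun k => if (g k).2 then ‖(g k).1.1‖ ^ 2 - dist (g k).1.1 (g k).1.2 ^ 2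
        else -(‖(g k).1.1‖ ^ 2 - ‖(g k).1.2‖ ^ 2) with hγ
  set V : Fin s → EuclideanSpace ℝ (Fin d) → ℝ := fun k y =>
    α k * ‖y‖ ^ 2 + inner ℝ (β k) y + γ k with hV
  have hrng : ∀ k y, Vale.Agent.P054K.rng (g k) y = decide (V k y ≤ 0) := by
    intro k y
    unfold Vale.Agent.P054K.rng
    rfl
  obtain ⟨η, hη, hηle⟩ := Vale.Agent.P054K.exists_lb
    (fun q : P × Fin s => if 0 < V q.2 q.1 then V q.2 q.1 else 1) (by
      intro q
      by_cases h : 0 < V q.2 q.1
      · simp only [h, if_true]
      · simp only [h, if_false]; exact one_pos)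
  set pat : EuclideanSpace ℝ (Fin d) → Fin s → Bool := fun y k => Vale.Agent.P054K.rng (g k) y
    with hpat
  have hrep : ∀ σ : Fin s → Bool, ∃ p : EuclideanSpace ℝ (Fin d), σ ∈ P.image pat →
      p ∈ P ∧ pat p = σ := by
    intro σ
    by_cases h : σ ∈ P.image pat
    · obtain ⟨p, hp, hp2⟩ := Finset.mem_image.mp h
      exact ⟨p, fun _ => ⟨hp, hp2⟩⟩
    · exact ⟨0, fun h' => absurd h' h⟩
  choose rep hrep using hrep
  set S : Finset (Fin d → ℝ) := (P.image pat).image (fun σ => fun j => b.repr (rep σ) j) with hS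
  have hcard : S.card = (P.image pat).card := by
    rw [hS]
    apply Finset.card_image_of_injOn
    intro σ hσ τ hτ hστ
    have h1 : b.repr (rep σ) = b.repr (rep τ) := by
      ext j
      exact congrFun hστ j
    have h2 := b.repr.injective h1
    rw [← (hrep σ hσ).2, ← (hrep τ hτ).2, h2]
  set fs : Fin s → MvPolynomial (Fin d) ℝ := fun k => rpoly b (α k) (β k) (γ k - η / 2) with hfs
  have hval : ∀ p : EuclideanSpace ℝ (Fin d), ∀ k, eval (fun j => b.repr p j) (fs k) =
      V k p - η / 2 := by
    intro p k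
    rw [hfs]
    simp only
    rw [eval_rpoly]
    simp only [hV]
    ring
  have hsgn : ∀ p ∈ P, ∀ k, (pat p k = true → V k p - η / 2 < 0) ∧
      (pat p k = false → 0 < V k p - η / 2) := by
    intro p hp k
    constructor
    · intro h1
      rw [hpat] at h1
      simp only at h1
      rw [hrng, decide_eq_true_iff] at h1
      linarith only [h1, hη]
    · intro h1
      rw [hpat] at h1
      simp only at h1
      rw [hrng, decide_eq_false_iff_not, not_le] at h1
      have h2 := hηle (⟨p, hp⟩, k)
      simp only [h1, if_true] at h2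
      linarith only [h2, hη]
  have hmain := Vale.Agent.P054.W.card_signs_variety_le' {i0} n0 n0 hn0 hn0 (fun _ => h)
    (fun j hj m hm => by
      obtain ⟨h1, h2⟩ := hsupp m hm
      obtain rfl := Finset.mem_singleton.mp hj
      exact ⟨fun l hl hlj => absurd (Finset.mem_singleton.mp hl) hlj, h1,
        (Finset.sum_le_sum_of_subset (Finset.subset_univ _)).trans h2⟩)
    fs (2 * s) (by omega) (by
      calc ∑ j, (fs j).totalDegree ≤ ∑ _j : Fin s, 2 :=
            Finset.sum_le_sum (fun j _ => totalDegree_rpoly _ _ _ _)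
        _ = 2 * s := by simp [mul_comm]) S (by
      intro y hy j hj
      obtain rfl := Finset.mem_singleton.mp hj
      obtain ⟨σ, hσ, rfl⟩ := Finset.mem_image.mp hy
      have h1 := hP _ (hrep σ hσ).1
      rw [← eval_coords b f] at h1
      rw [hh, map_sub, map_pow, eval_X, map_mul, hF', h1, mul_zero, sub_zero]) (by
      intro y hy j
      obtain ⟨σ, hσ, rfl⟩ := Finset.mem_image.mp hy
      rw [hval]
      obtain ⟨h1, h2⟩ := hsgn _ (hrep σ hσ).1 j
      cases hb' : pat (rep σ) j with
      | true => exact (h1 hb').ne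
      | false => exact (h2 hb').ne') (by
      intro y hy y' hy' hpos
      obtain ⟨σ, hσ, rfl⟩ := Finset.mem_image.mp hy
      obtain ⟨τ, hτ, rfl⟩ := Finset.mem_image.mp hy'
      have h3 : σ = τ := by
        rw [← (hrep σ hσ).2, ← (hrep τ hτ).2]
        funext j
        have h4 := hpos j
        rw [hval, hval] at h4
        obtain ⟨h1, h2⟩ := hsgn _ (hrep σ hσ).1 j
        obtain ⟨h1', h2'⟩ := hsgn _ (hrep τ hτ).1 j
        cases hb1 : pat (rep σ) j with
        | true =>
          cases hb2 : pat (rep τ) j with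
          | true => rfl
          | false =>
            exfalso
            have := mul_neg_of_neg_of_pos (h1 hb1) (h2' hb2)
            linarith only [this, h4]
        | false =>
          cases hb2 : pat (rep τ) j with
          | true =>
            exfalso
            have := mul_neg_of_pos_of_neg (h2 hb1) (h1' hb2)
            linarith only [this, h4]
          | false => rfl
      rw [h3])
  rw [hcard] at hmain
  refine hmain.trans ?_
  have hcc : ({i0}ᶜ : Finset (Fin d)).card = d - 1 := by
    rw [Finset.card_compl, Fintype.card_fin, Finset.card_singleton]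
  rw [hcc, Finset.card_singleton, pow_one]
  have hne : n0 ≤ e := he
  have e1 : 2 * (1 * n0 + n0 + 1) ≤ 6 * e := by omega
  have e2 : 8 * (1 * n0 + n0 + 1) * n0 + 1 ≤ 25 * e ^ 2 := by
    have h1 : 8 * (1 * n0 + n0 + 1) ≤ 24 * e := by omega
    have h2 : 8 * (1 * n0 + n0 + 1) * n0 ≤ 24 * e * e := Nat.mul_le_mul h1 hne
    have h3 : 1 ≤ e * e := Nat.mul_pos he1 he1
    calc 8 * (1 * n0 + n0 + 1) * n0 + 1 ≤ 24 * e * e + e * e := Nat.add_le_add h2 h3
      _ = 25 * e ^ 2 := by ring
  obtain ⟨k, rfl⟩ : ∃ k, d = k + 1 := ⟨d - 1, by omega⟩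
  have e3 : 2 * (k + 1) - 1 = 2 * k + 1 := by omega
  rw [e3]
  simp only [Nat.add_sub_cancel]
  calc 2 * (1 * n0 + n0 + 1) * (8 * (1 * n0 + n0 + 1) * n0 + 1) ^ k * (2 * s) ^ k
      ≤ (6 * e) * (25 * e ^ 2) ^ k * (2 * s) ^ k :=
        Nat.mul_le_mul_right _ (Nat.mul_le_mul e1 (Nat.pow_le_pow_left e2 k))
    _ = 6 * (25 * 2) ^ k * (e ^ (2 * k) * e) * s ^ k := by
        rw [mul_pow 25, mul_pow 2 s, mul_pow 25 2, ← pow_mul e 2 k]; ring
    _ = 6 * 50 ^ k * e ^ (2 * k + 1) * s ^ k := by
        rw [← pow_succ]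

end Vale.Agent.P054.H978
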