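import Vale.Agent.P054.MathlibUsed
import Vale.Agent.P054.Bdl.B3
import Vale.Agent.P054.H978.Pairs

/-!
# P054: the key inequality of the first layer, for a set of points with few cells
-/

set_option autoImplicit false
set_option linter.all false

open Finset

namespace Vale.Agent.P054.H978

open Vale.Agent.P054K

open scoped Classical in
/-- the key inequality of the first layer, with the number `B` of cells and the bounds `G` for
the flats as parameters -/
theorem key_of (d : ℕ) (hd : 2 ≤ d) : ∃ (K : ℝ) (c : ℕ), 1 ≤ K ∧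
    ∀ (P : Finset (EuclideanSpace ℝ (Fin d))) (t x s B : ℕ) (Λ : ℝ) (G : ℕ → ℝ),
      (∀ p ∈ P, (P.image (dist p)).card ≤ t + 1) → 1 ≤ s → 1 ≤ x →
      20 * (Real.log ((P.card:ℝ) * x + 3) + 1) ≤ Λ →
      (∀ g : Fin s → (EuclideanSpace ℝ (Fin d) × EuclideanSpace ℝ (Fin d)) × Bool,
        (P.image (fun y => fun k => rng (g k) y)).card ≤ B) →
      2 * x * B ≤ P.card → 4 * x * (2 * s + 1) ^ 1 ≤ P.card →
      100 * ((t:ℝ) + 1) * Λ / s + 4 ≤ x →
      K * Λ ^ c ≤ s → (∀ j, 0 ≤ G j) →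
      (∀ w, 2 ≤ w → w ≤ d → ∀ S ⊆ P, ∀ A : Submodule ℝ (EuclideanSpace ℝ (Fin d) × ℝ),
        (∀ p ∈ S, A ≤ hyp p) → Module.finrank ℝ A = w → (S.card : ℝ) ≤ G (d - w)) →
      (P.card : ℝ) ≤ K * Λ ^ c * ∑ w ∈ Icc 2 d, ((x:ℝ) ^ w / s + (x:ℝ) ^ (w - 1)) * G (d - w) := by
  obtain ⟨K0, c0, hK0, hET⟩ := et_uniform d
  have hK0d : (1:ℝ) ≤ K0 ^ d := one_le_pow₀ hK0
  refine ⟨5 * K0 * (4 * K0 ^ d) ^ (d + 1), 1 + c0 + c0 * d * (d + 1), ?_, ?_⟩
  · have h1 : (1:ℝ) ≤ (4 * K0 ^ d) ^ (d + 1) := one_le_pow₀ (by linarith only [hK0d])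
    nlinarith only [hK0, h1]
  intro P t x s B Λ G ht hs hx hΛ hB h1 h1' h2 hKs hG0' hG
  have hx' : (1:ℝ) ≤ x := by exact_mod_cast hx
  have hs' : (0:ℝ) < s := by exact_mod_cast hs
  have hP : 0 < P.card := by
    have : 0 < 4 * x * (2 * s + 1) ^ 1 := by positivity
    omega
  set n : ℝ := (P.card : ℝ) with hn
  have hn1 : (1:ℝ) ≤ n := by rw [hn]; exact_mod_cast hP
  have hn0 : 0 < n := by linarith only [hn1]
  have hlogx : Real.log (n + 3) ≤ Real.log (n * x + 3) :=
    Real.log_le_log (by (clear * - hP; positivity)) (by linarith only [mul_nonneg (sub_nonneg.2 hx') (le_of_lt (sub_pos.2 hn0))])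
  have hlog : 0 ≤ Real.log (n + 3) := Real.log_nonneg (by linarith only [hn1])
  have hΛ1 : 1 ≤ Λ := by linarith only [hΛ, hlogx, hlog]
  set L : ℝ := K0 * Λ ^ c0 with hL
  have hLE : (5 * K0 * (4 * K0 ^ d) ^ (d + 1)) * Λ ^ (1 + c0 + c0 * d * (d + 1))
      = 5 * Λ * L * (4 * L ^ d) ^ (d + 1) := by
    rw [hL, mul_pow K0 (Λ ^ c0) d, mul_pow, mul_pow 4 (K0 ^ d * (Λ ^ c0) ^ d), mul_pow (K0 ^ d),
      pow_add, pow_add, pow_one, ← pow_mul Λ c0 d, ← pow_mul Λ (c0 * d)]
    ring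
  rw [hLE]
  rw [hLE] at hKs
  have hL1 : 1 ≤ L := by
    have : (1:ℝ) ≤ Λ ^ c0 := one_le_pow₀ hΛ1
    rw [hL]; nlinarith only [hK0, this]
  have hL0 : 0 < L := by linarith only [hL1]
  have hLd : (1:ℝ) ≤ L ^ d := one_le_pow₀ hL1
  -- basic size of s
  have hsL : 5 * Λ * L * L ^ d ≤ s := by
    refine le_trans ?_ hKs
    have h3 : L ^ d ≤ (4 * L ^ d) ^ (d + 1) := by
      calc L ^ d ≤ 4 * L ^ d := by linarith only [hLd]
        _ = (4 * L ^ d) ^ 1 := (pow_one _).symm
        _ ≤ (4 * L ^ d) ^ (d + 1) := pow_le_pow_right₀ (by linarith only [hLd]) (by omega)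
    exact mul_le_mul_of_nonneg_left h3 (by (clear * - hK0 hΛ1; positivity))
  obtain ⟨T, hT1, hT2, hT3, hT4⟩ := exists_pairs_of d P P Subset.rfl t x s B Λ (by
    linarith only [hΛ, hlogx, hlog]) ht hs hx hB h1 h1' h2
  -- set up
  set m : ℝ := n * Λ / s with hm
  have hm0 : 0 < m := by (clear * - hs hP hΛ1; positivity)
  set θ : ℕ → ℝ := fun w => n / 4 * (L ^ w / L ^ d) with hθ
  have hθpos : ∀ w, 0 < θ w := fun w => by simp only [hθ]; (clear * - hK0 hP hΛ1; positivity)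
  have hθsucc : ∀ w, L * θ w = θ (w + 1) := by
    intro w; simp only [hθ]; rw [pow_succ]; ring
  have hθmono : ∀ w w', w ≤ w' → θ w ≤ θ w' := by
    intro w w' hww
    simp only [hθ]
    apply mul_le_mul_of_nonneg_left _ (by (clear * - hP; positivity))
    apply div_le_div_of_nonneg_right _ (by positivity)
    exact pow_le_pow_right₀ hL1 hww
  have hmθ : L * m ≤ θ 0 := by
    simp only [hθ, pow_zero, hm]
    rw [mul_div_assoc', mul_one_div, div_le_div_iff₀ hs' (by positivity)]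
    have h3 : 5 * Λ * L * L ^ d * n ≤ s * n := mul_le_mul_of_nonneg_right hsL hn0.le
    have h4 : 0 < Λ * L * L ^ d * n := by (clear * - hK0 hP hΛ1; positivity)
    linarith only [h3, h4]
  have hm1 : m < θ 1 := by
    have h3 : L * m ≤ θ 0 := hmθ
    have h4 : m ≤ L * m := le_mul_of_one_le_left hm0.le hL1
    -- strictness
    simp only [hθ, pow_one, hm]
    rw [div_lt_iff₀ hs']
    have h5 : n / 4 * (L / L ^ d) * (5 * Λ * L * L ^ d) ≤ n / 4 * (L / L ^ d) * s :=
      mul_le_mul_of_nonneg_left hsL (by (clear * - hK0 hP hΛ1; positivity))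
    have h6 : n / 4 * (L / L ^ d) * (5 * Λ * L * L ^ d) = 5 / 4 * (n * Λ) * L ^ 2 := by
      (clear * - hn1 hΛ1 hL1; field_simp)
    rw [h6] at h5
    have h7 : (1:ℝ) ≤ L ^ 2 := one_le_pow₀ hL1
    have h8 : 0 < n * Λ := by (clear * - hP hΛ1; positivity)
    linarith only [mul_nonneg (sub_nonneg.2 h7) (le_of_lt (sub_pos.2 h8)), h8, h5]
  have hv0 : ∀ π ∈ T, dualVec π ≠ 0 := fun π hπ => dualVec_ne_zero π (hT1 π hπ).2.2
  -- the minimal rich subspaces
  have hmin : ∀ p ∈ P, ∃ w, w ≤ d ∧ ∃ A : Submodule ℝ (EuclideanSpace ℝ (Fin d) × ℝ), A ≤ hyp p ∧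
      Module.finrank ℝ A = w ∧ θ w ≤ mass T dualVec A ∧
      ∀ B : Submodule ℝ (EuclideanSpace ℝ (Fin d) × ℝ), B < A → Module.finrank ℝ B < w ∧
        mass T dualVec B < θ (Module.finrank ℝ B) := by
    intro p hp
    apply exists_minimal_rich T dualVec (hyp p) d (finrank_hyp p) θ
    have h3 := hT3 p hp
    have h4 : mass T dualVec (hyp p) = ((T.filter (fun π => dist p π.1 = dist p π.2)).card : ℝ) := by
      unfold mass
      congr 2
      apply Finset.filter_congr
      intro π _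
      rw [dualVec_mem_hyp]
    rw [h4]
    simp only [hθ]
    rw [div_self (by positivity), mul_one]
    have h5 : n ≤ 4 * ((T.filter (fun π => dist p π.1 = dist p π.2)).card : ℝ) := by
      rw [hn]; exact_mod_cast h3
    linarith only [h5]
  choose! wp hwd Ap hAp hfr hrich hBmin using hmin
  have hw2 : ∀ p ∈ P, 2 ≤ wp p := by
    intro p hp
    by_contra hcon
    push Not at hcon
    interval_cases hwp : wp p
    · have h3 := mass_of_finrank_zero T dualVec hv0 (Ap p) (by rw [hfr p hp, hwp])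
      have h4 := hrich p hp
      rw [h3, hwp] at h4
      exact absurd (hθpos 0) (not_lt.mpr h4)
    · have h3 := mass_of_finrank_one T dualVec m hm0.le hv0 hT4 (Ap p) (by rw [hfr p hp, hwp])
      have h4 := hrich p hp
      rw [hwp] at h4
      linarith only [hm1, h3, h4]
  -- partition according to wp
  have hsum : n = ∑ w ∈ Icc 2 d, ((P.filter (fun p => wp p = w)).card : ℝ) := by
    rw [hn]
    have h3 : P.card = ∑ w ∈ Icc 2 d, (P.filter (fun p => wp p = w)).card := by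
      apply Finset.card_eq_sum_card_fiberwise
      intro p hp
      rw [mem_coe, mem_Icc]
      exact ⟨hw2 p hp, hwd p hp⟩
    exact_mod_cast h3
  rw [hsum, Finset.mul_sum]
  apply Finset.sum_le_sum
  intro w hw
  rw [mem_Icc] at hw
  set Pw := P.filter (fun p => wp p = w) with hPw
  set Zw := Pw.image Ap with hZw
  have hG0 : 0 ≤ G (d - w) := hG0' _
  have hfib : (Pw.card : ℝ) ≤ Zw.card * G (d - w) := by
    have h3 : Pw.card = ∑ A ∈ Zw, (Pw.filter (fun p => Ap p = A)).card :=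
      Finset.card_eq_sum_card_fiberwise (fun p hp => mem_image_of_mem Ap hp)
    rw [h3]
    push_cast
    calc ∑ A ∈ Zw, ((Pw.filter (fun p => Ap p = A)).card : ℝ) ≤ ∑ _A ∈ Zw, G (d - w) := by
          apply Finset.sum_le_sum
          intro A hA
          rw [hZw, mem_image] at hA
          obtain ⟨q, hq, hqA⟩ := hA
          have hq' := mem_filter.mp hq
          apply hG w hw.1 hw.2 _ ((filter_subset _ _).trans (filter_subset _ _)) A
          · intro p hp
            have h4 := mem_filter.mp hp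
            have h5 := mem_filter.mp h4.1
            rw [← h4.2]
            exact hAp p h5.1
          · rw [← hqA, hfr q hq'.1, hq'.2]
      _ = Zw.card * G (d - w) := by rw [Finset.sum_const, nsmul_eq_mul]
  have hZ := hET w hw.1 hw.2 (EuclideanSpace ℝ (Fin d) × ℝ)
    (EuclideanSpace ℝ (Fin d) × EuclideanSpace ℝ (Fin d)) T dualVec m (n * x) (θ w) Λ Zw
    hv0 hT4 hm0 (by rw [hn]; exact_mod_cast hT2) hΛ
    (hmθ.trans (hθmono 0 w (by omega)))
    (by
      intro A hA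
      rw [hZw, mem_image] at hA
      obtain ⟨q, hq, rfl⟩ := hA
      have hq' := mem_filter.mp hq
      refine ⟨by rw [hfr q hq'.1, hq'.2], by rw [← hq'.2]; exact hrich q hq'.1, ?_⟩
      intro B hB
      obtain ⟨h3, h4⟩ := hBmin q hq'.1 B hB
      calc L * mass T dualVec B ≤ L * θ (Module.finrank ℝ B) :=
            mul_le_mul_of_nonneg_left h4.le hL0.le
        _ = θ (Module.finrank ℝ B + 1) := hθsucc _
        _ ≤ θ (wp q) := hθmono _ _ h3
        _ ≤ mass T dualVec (Ap q) := hrich q hq'.1)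
  have hZ2 := hZ.trans (rich_numeric d w hw.2 hw.1 n x s L Λ hn0 (by linarith only []) hs' hL1 hΛ1)
  calc (Pw.card : ℝ) ≤ Zw.card * G (d - w) := hfib
    _ ≤ (5 * Λ * L * (4 * L ^ d) ^ (d + 1) * ((x:ℝ) ^ w / s + (x:ℝ) ^ (w - 1))) * G (d - w) :=
        mul_le_mul_of_nonneg_right hZ2 hG0
    _ = _ := by ring

end Vale.Agent.P054.H978
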