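import Vale.Agent.P054.MathlibUsed
import Vale.Agent.P054.Bdl.B5
import Vale.Agent.P054.H978.Key
import Vale.Agent.P054.H978.Cells

/-!
# P054: the exponents for sets on a hypersurface
-/

set_option autoImplicit false
set_option linter.all false

open Finset

namespace Vale.Agent.P054.H978

open Vale.Agent.P054K

/-- bounds for the parts of `P` on the flats given by dual subspaces -/
def FlatBd {d : ℕ} (P : Finset (EuclideanSpace ℝ (Fin d))) (G : ℕ → ℝ) : Prop :=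
  ∀ w, 2 ≤ w → w ≤ d → ∀ S ⊆ P, ∀ A : Submodule ℝ (EuclideanSpace ℝ (Fin d) × ℝ),
    (∀ p ∈ S, A ≤ hyp p) → Module.finrank ℝ A = w → (S.card : ℝ) ≤ G (d - w)

/-- the key inequality as a property of the constants -/
def KeyOf (d : ℕ) (K : ℝ) (c : ℕ) : Prop :=
  open scoped Classical in
  ∀ (P : Finset (EuclideanSpace ℝ (Fin d))) (t x s B : ℕ) (Λ : ℝ) (G : ℕ → ℝ),
      (∀ p ∈ P, (P.image (dist p)).card ≤ t + 1) → 1 ≤ s → 1 ≤ x →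
      20 * (Real.log ((P.card:ℝ) * x + 3) + 1) ≤ Λ →
      (∀ g : Fin s → (EuclideanSpace ℝ (Fin d) × EuclideanSpace ℝ (Fin d)) × Bool,
        (P.image (fun y => fun k => rng (g k) y)).card ≤ B) →
      2 * x * B ≤ P.card → 4 * x * (2 * s + 1) ^ 1 ≤ P.card →
      100 * ((t:ℝ) + 1) * Λ / s + 4 ≤ x →
      K * Λ ^ c ≤ s → (∀ j, 0 ≤ G j) →
      (∀ w, 2 ≤ w → w ≤ d → ∀ S ⊆ P, ∀ A : Submodule ℝ (EuclideanSpace ℝ (Fin d) × ℝ),
        (∀ p ∈ S, A ≤ hyp p) → Module.finrank ℝ A = w → (S.card : ℝ) ≤ G (d - w)) →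
      (P.card : ℝ) ≤ K * Λ ^ c * ∑ w ∈ Icc 2 d, ((x:ℝ) ^ w / s + (x:ℝ) ^ (w - 1)) * G (d - w)

open scoped Classical in
theorem core_num (d : ℕ) (hd : 3 ≤ d) (K : ℝ) (c : ℕ) (hK : 1 ≤ K) (hkey : KeyOf d K c)
    (η α a b Em Cc : ℝ) (g : ℕ → ℝ) (hη0 : 0 ≤ η) (ha0 : 0 ≤ a) (hb0 : 0 ≤ b) (hα0 : 0 ≤ α)
    (hC0 : 0 ≤ Cc)
    (hE : ∀ w : ℕ, 2 ≤ w → w ≤ d → (w:ℝ) * b - a + g (d - w) ≤ Em ∧
      ((w:ℝ) - 1) * b + g (d - w) ≤ Em)
    (t : ℕ) (T : ℝ) (hTt : T = t) (hT : 1 ≤ T) (e : ℕ) (he1 : 1 ≤ e) (heT : (e:ℝ) ≤ T ^ η)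
    (e1 : 20 * (Real.log (7 * T ^ (α + b)) + 1) ≤ T ^ η)
    (e2 : 24 * 50 ^ (d - 1) * T ^ (b + (2 * (d:ℝ) - 1) * η + ((d:ℝ) - 1) * a) ≤ T ^ α)
    (e2' : 8 * 3 ^ 1 * T ^ (b + ((1:ℕ):ℝ) * a) ≤ T ^ α)
    (e3 : 800 * T ^ (1 + η - a) ≤ T ^ b) (e4 : 8 ≤ T ^ b)
    (e5 : 2 * K * T ^ (c * η) ≤ T ^ a)
    (e6 : 2 * (K * (2 ^ (d + 2) * (d * Cc))) * T ^ (c * η + Em) ≤ T ^ α)
    (P : Finset (EuclideanSpace ℝ (Fin d))) (hpin : ∀ p ∈ P, (P.image (dist p)).card ≤ t + 1)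
    (f : MvPolynomial (Fin d) ℝ) (hf : f ≠ 0) (he : f.totalDegree ≤ e)
    (hP : ∀ p ∈ P, MvPolynomial.eval (fun i => p i) f = 0)
    (hG : FlatBd P (fun j => Cc * T ^ g j)) : (P.card : ℝ) ≤ 2 * T ^ α := by
  have hT0 : 0 < T := by linarith only [hT]
  by_contra hcon
  push Not at hcon
  have hTα : 1 ≤ T ^ α := Real.one_le_rpow hT hα0
  have hTa1 : 1 ≤ T ^ a := Real.one_le_rpow hT ha0
  have hTb1 : 1 ≤ T ^ b := Real.one_le_rpow hT hb0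
  -- choose the subset
  obtain ⟨n, hn⟩ : ∃ n : ℕ, n = ⌈T ^ α⌉₊ := ⟨_, rfl⟩
  have hn1 : T ^ α ≤ n := by rw [hn]; exact Nat.le_ceil _
  have hn2 : (n:ℝ) ≤ 2 * T ^ α := by
    have := Nat.ceil_lt_add_one (show 0 ≤ T ^ α by linarith only [hTα])
    rw [← hn] at this
    linarith only [hTα, this]
  have hnP : n ≤ P.card := by
    have : (n:ℝ) < P.card := lt_of_le_of_lt hn2 hcon
    exact_mod_cast this.le
  obtain ⟨P', hP'sub, hP'card⟩ := exists_subset_card_eq hnP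
  have hP' : ∀ p ∈ P', (P'.image (dist p)).card ≤ t + 1 := by
    intro p hp
    exact (card_le_card (image_subset_image hP'sub)).trans (hpin p (hP'sub hp))
  -- parameters
  obtain ⟨x, hx⟩ : ∃ x : ℕ, x = ⌈T ^ b⌉₊ := ⟨_, rfl⟩
  have hx1 : T ^ b ≤ x := by rw [hx]; exact Nat.le_ceil _
  have hx2 : (x:ℝ) ≤ 2 * T ^ b := by
    have := Nat.ceil_lt_add_one (show 0 ≤ T ^ b by linarith only [hTb1])
    rw [← hx] at this
    linarith only [e4, this]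
  have hxpos : 1 ≤ x := by
    have : (1:ℝ) ≤ x := hTb1.trans hx1
    exact_mod_cast this
  obtain ⟨s, hs⟩ : ∃ s : ℕ, s = ⌊T ^ a⌋₊ := ⟨_, rfl⟩
  have hs1 : (s:ℝ) ≤ T ^ a := by rw [hs]; exact Nat.floor_le (by linarith only [hTa1])
  have hspos : 1 ≤ s := by
    rw [hs, Nat.one_le_floor_iff]
    exact hTa1
  have hs2 : T ^ a / 2 ≤ s := by
    have h1 := Nat.lt_floor_add_one (T ^ a)
    rw [← hs] at h1
    have h2 : (1:ℝ) ≤ s := by exact_mod_cast hspos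
    linarith only [h1, h2]
  have hs0 : (0:ℝ) < s := by exact_mod_cast hspos
  have hsN : (0:ℝ) ≤ s := hs0.le
  have hxN : (0:ℝ) ≤ x := by
    have : (1:ℝ) ≤ x := by exact_mod_cast hxpos
    linarith only [this]
  -- conditions
  have c1 : 20 * (Real.log ((P'.card:ℝ) * x + 3) + 1) ≤ T ^ η := by
    rw [hP'card]
    exact cond1 T α b η n x hT (Nat.cast_nonneg n) hxN hn2 hx2 hTα hTb1 e1
  have c2 : 2 * x * (6 * 50 ^ (d - 1) * e ^ (2 * d - 1) * s ^ (d - 1)) ≤ P'.card := by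
    rw [hP'card]
    have h1 : (2:ℝ) * x * (6 * 50 ^ (d - 1) * (e:ℝ) ^ (2 * d - 1) * (s:ℝ) ^ (d - 1)) ≤ n := by
      refine le_trans ?_ hn1
      refine le_trans ?_ e2
      have hc1 : ((2 * d - 1 : ℕ) : ℝ) = 2 * (d:ℝ) - 1 := by
        rw [Nat.cast_sub (by omega)]; push_cast; ring
      have hc2 : ((d - 1 : ℕ) : ℝ) = (d:ℝ) - 1 := by
        rw [Nat.cast_sub (by omega)]; push_cast; ring
      have h2 : (e:ℝ) ^ (2 * d - 1) ≤ T ^ ((2 * (d:ℝ) - 1) * η) := by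
        calc (e:ℝ) ^ (2 * d - 1) ≤ (T ^ η) ^ (2 * d - 1) :=
              pow_le_pow_left₀ (Nat.cast_nonneg e) heT _
          _ = T ^ ((2 * (d:ℝ) - 1) * η) := by
              rw [← Real.rpow_natCast, ← Real.rpow_mul hT0.le, hc1]; congr 1; ring
      have h3 : (s:ℝ) ^ (d - 1) ≤ T ^ (((d:ℝ) - 1) * a) := by
        calc (s:ℝ) ^ (d - 1) ≤ (T ^ a) ^ (d - 1) := pow_le_pow_left₀ hsN hs1 _
          _ = T ^ (((d:ℝ) - 1) * a) := by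
              rw [← Real.rpow_natCast, ← Real.rpow_mul hT0.le, hc2]; congr 1; ring
      have hp2 : 0 ≤ (e:ℝ) ^ (2 * d - 1) := pow_nonneg (Nat.cast_nonneg e) _
      have hp3 : 0 ≤ (s:ℝ) ^ (d - 1) := pow_nonneg hsN _
      have hq2 : 0 < T ^ ((2 * (d:ℝ) - 1) * η) := Real.rpow_pos_of_pos hT0 _
      have hq3 : 0 < T ^ (((d:ℝ) - 1) * a) := Real.rpow_pos_of_pos hT0 _
      have h4 : (e:ℝ) ^ (2 * d - 1) * (s:ℝ) ^ (d - 1) ≤
          T ^ ((2 * (d:ℝ) - 1) * η) * T ^ (((d:ℝ) - 1) * a) := mul_le_mul h2 h3 hp3 hq2.le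
      calc (2:ℝ) * x * (6 * 50 ^ (d - 1) * (e:ℝ) ^ (2 * d - 1) * (s:ℝ) ^ (d - 1))
          = 12 * 50 ^ (d - 1) * (x * ((e:ℝ) ^ (2 * d - 1) * (s:ℝ) ^ (d - 1))) := by ring
        _ ≤ 12 * 50 ^ (d - 1) * ((2 * T ^ b) *
            (T ^ ((2 * (d:ℝ) - 1) * η) * T ^ (((d:ℝ) - 1) * a))) := by
            apply mul_le_mul_of_nonneg_left _ (by positivity)
            exact mul_le_mul hx2 h4 (mul_nonneg hp2 hp3) (by positivity)
        _ = 24 * 50 ^ (d - 1) * T ^ (b + (2 * (d:ℝ) - 1) * η + ((d:ℝ) - 1) * a) := by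
            rw [Real.rpow_add hT0, Real.rpow_add hT0]; ring
    exact_mod_cast h1
  have c2' : 4 * x * (2 * s + 1) ^ 1 ≤ P'.card := by
    have h1 := cond2 T α a b n x s 1 hT hsN hn1 hx2 hs1 hTa1 e2'
    rw [hP'card]
    exact_mod_cast h1
  have c3 : 100 * ((t:ℝ) + 1) * T ^ η / s + 4 ≤ x := by
    rw [← hTt]
    exact cond3 T a b η x s hT hs0 hx1 hs2 e3 e4
  have c4 : K * (T ^ η) ^ c ≤ s := cond4 T a η K s c hT hs2 e5
  have hfin := hkey P' t x s (6 * 50 ^ (d - 1) * e ^ (2 * d - 1) * s ^ (d - 1)) (T ^ η)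
    (fun j => Cc * T ^ g j) hP' hspos hxpos c1
    (fun gg => cells d (by omega) e he1 f hf he P' (fun p hp => hP p (hP'sub hp)) s hspos gg)
    c2 c2' c3 c4 (fun j => mul_nonneg hC0 (Real.rpow_pos_of_pos hT0 _).le)
    (fun w h1 h2 S hS A hA hAw => hG w h1 h2 S (hS.trans hP'sub) A hA hAw)
  have hTE : 0 < T ^ Em := Real.rpow_pos_of_pos hT0 _
  have hsum : ∑ w ∈ Icc 2 d, ((x:ℝ) ^ w / s + (x:ℝ) ^ (w - 1)) *
      (fun j => Cc * T ^ g j) (d - w) ≤ 2 ^ (d + 2) * (d * Cc) * T ^ Em := by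
    have h1 : ∀ w ∈ Icc 2 d, ((x:ℝ) ^ w / s + (x:ℝ) ^ (w - 1)) *
        (fun j => Cc * T ^ g j) (d - w) ≤ 2 ^ (d + 2) * (Cc * T ^ Em) := by
      intro w hw
      rw [mem_Icc] at hw
      obtain ⟨i1, i2⟩ := hE w hw.1 hw.2
      have h1 := term_bound T a b x s Cc (g (d - w)) Em w (by omega) hT hxN hx2 hs2 hC0 i1 i2
      refine h1.trans ?_
      have h2 : (2:ℝ) ^ (w + 2) ≤ 2 ^ (d + 2) := pow_le_pow_right₀ (by norm_num) (by omega)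
      exact mul_le_mul_of_nonneg_right h2 (mul_nonneg hC0 hTE.le)
    refine (Finset.sum_le_card_nsmul _ _ _ h1).trans ?_
    rw [nsmul_eq_mul, Nat.card_Icc]
    have h2 : ((d + 1 - 2 : ℕ) : ℝ) ≤ d := by
      have : d + 1 - 2 ≤ d := by omega
      exact_mod_cast this
    have h3 : 0 ≤ 2 ^ (d + 2) * (Cc * T ^ Em) :=
      mul_nonneg (by positivity) (mul_nonneg hC0 hTE.le)
    calc ((d + 1 - 2 : ℕ) : ℝ) * (2 ^ (d + 2) * (Cc * T ^ Em))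
        ≤ d * (2 ^ (d + 2) * (Cc * T ^ Em)) := mul_le_mul_of_nonneg_right h2 h3
      _ = 2 ^ (d + 2) * (d * Cc) * T ^ Em := by ring
  have hKη : 0 ≤ K * (T ^ η) ^ c :=
    mul_nonneg (by linarith only [hK]) (pow_nonneg (Real.rpow_pos_of_pos hT0 _).le _)
  have h1 : (P'.card:ℝ) ≤ K * (T ^ η) ^ c * (2 ^ (d + 2) * (d * Cc) * T ^ Em) :=
    hfin.trans (mul_le_mul_of_nonneg_left hsum hKη)
  have h2 : (T ^ η) ^ c = T ^ ((c:ℝ) * η) := by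
    rw [← Real.rpow_natCast, ← Real.rpow_mul hT0.le]; congr 1; ring
  rw [h2] at h1
  have h3 : K * T ^ ((c:ℝ) * η) * (2 ^ (d + 2) * (d * Cc) * T ^ Em)
      = (K * (2 ^ (d + 2) * (d * Cc))) * T ^ ((c:ℝ) * η + Em) := by
    rw [Real.rpow_add hT0]; ring
  rw [h3, hP'card] at h1
  linarith only [e6, hTα, hn1, h1]

open scoped Classical in
/-- the general bound: `a = 1/2 - θ`, flats with at most `C t^(j/2 + 1/2 - ρ)` points -/
theorem core (d : ℕ) (hd : 3 ≤ d) (θ ρ α : ℝ) (hθ0 : 0 ≤ θ) (hθ1 : θ ≤ 1 / 4)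
    (h1 : (d:ℝ) / 2 - ((d:ℝ) - 2) * θ < α) (h2 : (d:ℝ) / 2 + ((d:ℝ) + 1) * θ - ρ < α)
    (hα : 1 < α) :
    ∃ η : ℝ, 0 < η ∧ ∀ Cc : ℝ, 0 ≤ Cc → ∃ T0 : ℝ, 1 ≤ T0 ∧ ∀ t : ℕ, T0 ≤ t → ∀ e : ℕ, 1 ≤ e →
      (e:ℝ) ≤ (t:ℝ) ^ η → ∀ (P : Finset (EuclideanSpace ℝ (Fin d)))
      (f : MvPolynomial (Fin d) ℝ), (∀ p ∈ P, (P.image (dist p)).card ≤ t + 1) → f ≠ 0 →
      f.totalDegree ≤ e → (∀ p ∈ P, MvPolynomial.eval (fun i => p i) f = 0) →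
      FlatBd P (fun j => Cc * (t:ℝ) ^ ((j:ℝ) / 2 + 1 / 2 - ρ)) →
      (P.card : ℝ) ≤ 2 * (t:ℝ) ^ α := by
  obtain ⟨K, c, hK, hkey⟩ := key_of d (by omega)
  have hD : (3:ℝ) ≤ d := by exact_mod_cast hd
  have hc0 : (0:ℝ) ≤ c := Nat.cast_nonneg c
  obtain ⟨m, hm⟩ : ∃ m : ℝ, m = min (min (α - ((d:ℝ) / 2 - ((d:ℝ) - 2) * θ))
    (α - ((d:ℝ) / 2 + ((d:ℝ) + 1) * θ - ρ))) (min (1 / 8) (α - 1)) := ⟨_, rfl⟩
  have hm0 : 0 < m := by
    rw [hm]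
    refine lt_min (lt_min (by linarith only [h1]) (by linarith only [h2]))
      (lt_min (by norm_num) (by linarith only [hα]))
  have hm1 : m ≤ α - ((d:ℝ) / 2 - ((d:ℝ) - 2) * θ) := by
    rw [hm]; exact (min_le_left _ _).trans (min_le_left _ _)
  have hm2 : m ≤ α - ((d:ℝ) / 2 + ((d:ℝ) + 1) * θ - ρ) := by
    rw [hm]; exact (min_le_left _ _).trans (min_le_right _ _)
  have hm3 : m ≤ 1 / 8 := by rw [hm]; exact (min_le_right _ _).trans (min_le_left _ _)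
  have hm4 : m ≤ α - 1 := by rw [hm]; exact (min_le_right _ _).trans (min_le_right _ _)
  obtain ⟨η, hη⟩ : ∃ η : ℝ, η = m / (4 * (c + d + 1)) := ⟨_, rfl⟩
  have hη0 : 0 < η := by
    rw [hη]
    exact div_pos hm0 (by linarith only [hc0, hD])
  have hmη : 4 * (c * η) + 4 * (d * η) + 4 * η = m := by
    have h3 : (4 * ((c:ℝ) + d + 1)) * η = m := by
      rw [hη]
      exact mul_div_cancel₀ m (by linarith only [hc0, hD])
    linarith only [h3]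
  have hcη : 0 ≤ (c:ℝ) * η := mul_nonneg hc0 hη0.le
  have hdη : 3 * η ≤ (d:ℝ) * η := mul_le_mul_of_nonneg_right hD hη0.le
  obtain ⟨a, ha⟩ : ∃ a : ℝ, a = 1 / 2 - θ := ⟨_, rfl⟩
  obtain ⟨b, hb⟩ : ∃ b : ℝ, b = 1 / 2 + θ + 2 * η := ⟨_, rfl⟩
  obtain ⟨Em, hEm⟩ : ∃ Em : ℝ, Em = (d:ℝ) / 2 + ((d:ℝ) + 1) * θ + 2 * d * η - ρ := ⟨_, rfl⟩
  refine ⟨η, hη0, ?_⟩
  intro Cc hCc
  obtain ⟨T1, hT1, hev1⟩ := ev_log (α + b) η hη0
  obtain ⟨T2, hT2, hev2⟩ := ev_rpow (24 * 50 ^ (d - 1))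
    (b + (2 * (d:ℝ) - 1) * η + ((d:ℝ) - 1) * a) α (by
      rw [hb, ha]
      have h3 : 1 / 2 + θ + 2 * η + (2 * (d:ℝ) - 1) * η + ((d:ℝ) - 1) * (1 / 2 - θ) =
          (d:ℝ) / 2 - ((d:ℝ) - 2) * θ + 2 * (d * η) + η := by ring
      rw [h3]
      linarith only [hm1, hmη, hcη, hdη, hη0])
  obtain ⟨T2', hT2', hev2'⟩ := ev_rpow (8 * 3 ^ 1) (b + ((1:ℕ):ℝ) * a) α (by
    rw [hb, ha]
    push_cast
    linarith only [hm4, hmη, hcη, hdη, hη0])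
  obtain ⟨T3, hT3, hev3⟩ := ev_rpow 800 (1 + η - a) b (by
    rw [hb, ha]; linarith only [hη0])
  obtain ⟨T4, hT4, hev4⟩ := ev_rpow 8 0 b (by rw [hb]; linarith only [hη0, hθ0])
  obtain ⟨T5, hT5, hev5⟩ := ev_rpow (2 * K) (c * η) a (by
    rw [ha]; linarith only [hm3, hmη, hcη, hdη, hη0, hθ1])
  obtain ⟨T6, hT6, hev6⟩ := ev_rpow (2 * (K * (2 ^ (d + 2) * (d * Cc)))) (c * η + Em) α (by
    rw [hEm]
    have h3 : (c:ℝ) * η + ((d:ℝ) / 2 + ((d:ℝ) + 1) * θ + 2 * d * η - ρ) =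
        c * η + 2 * (d * η) + ((d:ℝ) / 2 + ((d:ℝ) + 1) * θ - ρ) := by ring
    rw [h3]
    linarith only [hm2, hmη, hcη, hdη, hη0])
  refine ⟨max (max (max T1 T2) (max T3 T4)) (max (max T5 T6) T2'), ?_, ?_⟩
  · exact hT1.trans ((le_max_left _ _).trans ((le_max_left _ _).trans (le_max_left _ _)))
  intro t ht e he1 heT P f hpin hf he hP hG
  have hT1' : T1 ≤ t := ((le_max_left _ _).trans ((le_max_left _ _).trans (le_max_left _ _))).trans ht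
  have hT2a : T2 ≤ t := ((le_max_right _ _).trans ((le_max_left _ _).trans (le_max_left _ _))).trans ht
  have hT3' : T3 ≤ t := ((le_max_left _ _).trans ((le_max_right _ _).trans (le_max_left _ _))).trans ht
  have hT4' : T4 ≤ t := ((le_max_right _ _).trans ((le_max_right _ _).trans (le_max_left _ _))).trans ht
  have hT5' : T5 ≤ t := ((le_max_left _ _).trans ((le_max_left _ _).trans (le_max_right _ _))).trans ht
  have hT6' : T6 ≤ t := ((le_max_right _ _).trans ((le_max_left _ _).trans (le_max_right _ _))).trans ht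
  have hT2b : T2' ≤ t := ((le_max_right _ _).trans (le_max_right _ _)).trans ht
  have hT : (1:ℝ) ≤ t := hT1.trans hT1'
  have e4 := hev4 t hT4'
  rw [Real.rpow_zero, mul_one] at e4
  refine core_num d hd K c hK hkey η α a b Em Cc (fun j => (j:ℝ) / 2 + 1 / 2 - ρ) hη0.le
    (by rw [ha]; linarith only [hθ1]) (by rw [hb]; linarith only [hθ0, hη0])
    (by linarith only [hα]) hCc ?_ t t rfl hT e he1 heT (hev1 t hT1') (hev2 t hT2a)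
    (hev2' t hT2b) (hev3 t hT3') e4 (hev5 t hT5') (hev6 t hT6') P hpin f hf he hP hG
  intro w hw1 hw2
  have hcast : ((d - w : ℕ) : ℝ) = (d:ℝ) - w := by rw [Nat.cast_sub hw2]
  have hW : (w:ℝ) ≤ d := by exact_mod_cast hw2
  have hwθ : (w:ℝ) * θ ≤ d * θ := mul_le_mul_of_nonneg_right hW hθ0
  have hwη : (w:ℝ) * η ≤ d * η := mul_le_mul_of_nonneg_right hW hη0.le
  constructor
  · rw [hcast, hb, ha, hEm]
    have h3 : (w:ℝ) * (1 / 2 + θ + 2 * η) - (1 / 2 - θ) + (((d:ℝ) - w) / 2 + 1 / 2 - ρ) =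
        (d:ℝ) / 2 + (w * θ + θ) + 2 * (w * η) - ρ := by ring
    rw [h3]
    linarith only [hwθ, hwη]
  · rw [hcast, hb, hEm]
    have h3 : ((w:ℝ) - 1) * (1 / 2 + θ + 2 * η) + (((d:ℝ) - w) / 2 + 1 / 2 - ρ) =
        (d:ℝ) / 2 + (w * θ - θ) + 2 * (w * η) - 2 * η - ρ := by ring
    rw [h3]
    linarith only [hwθ, hwη, hθ0, hη0]

end Vale.Agent.P054.H978
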