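import Vale.Agent.P054.MathlibUsed
import Vale.Agent.P054.Bdl.B5
import Vale.Agent.P054.H978.Step

/-!
# P054: the number of points on the flats
-/

set_option autoImplicit false
set_option linter.all false

open Finset

namespace Vale.Agent.P054.H978

open Vale.Agent.P054K

theorem fe_le_half (j : ℕ) : fe j ≤ (j:ℝ) / 2 + 1 / 2 := by
  unfold fe
  rcases Nat.eq_zero_or_pos j with h | h
  · subst h; norm_num
  · have h1 : (1:ℝ) ≤ j := by exact_mod_cast h
    rw [div_le_iff₀ (by linarith only [h1])]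
    nlinarith only [h1]

theorem fe_le_third (j : ℕ) (hj : 2 ≤ j) : fe j ≤ (j:ℝ) / 2 + 1 / 3 := by
  unfold fe
  have h1 : (2:ℝ) ≤ j := by exact_mod_cast hj
  rw [div_le_iff₀ (by linarith only [h1])]
  nlinarith only [h1]

/-- uniform constants for the pinned bound in the dimensions at most `d` -/
theorem pinned_uniform (d : ℕ) (ε : ℝ) (hε : 0 < ε) : ∃ C : ℝ, 1 ≤ C ∧ ∀ j ≤ d, ∀ t : ℕ, 1 ≤ t →
    PinnedBy j t (C * (t:ℝ) ^ (fe j + ε)) := by
  choose C hC0 hC using fun j => main_pinned j ε hε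
  refine ⟨1 + ∑ j ∈ range (d + 1), C j, ?_, ?_⟩
  · have : 0 ≤ ∑ j ∈ range (d + 1), C j := Finset.sum_nonneg (fun j _ => (hC0 j).le)
    linarith only [this]
  · intro j hj t ht
    apply pinnedBy_mono le_rfl _ (hC j t ht)
    have ht' : (1:ℝ) ≤ t := by exact_mod_cast ht
    have h1 : C j ≤ ∑ j ∈ range (d + 1), C j :=
      Finset.single_le_sum (f := C) (fun i _ => (hC0 i).le) (mem_range.mpr (by omega))
    exact mul_le_mul_of_nonneg_right (by linarith only [h1])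
      (Real.rpow_nonneg (by linarith only [ht']) _)

/-- the flats, for a set with few pinned distances -/
theorem flats_general (d : ℕ) (ε : ℝ) (hε : 0 < ε) : ∃ C : ℝ, 1 ≤ C ∧ ∀ t : ℕ, 1 ≤ t →
    ∀ P : Finset (EuclideanSpace ℝ (Fin d)),
      (open scoped Classical in ∀ p ∈ P, (P.image (dist p)).card ≤ t + 1) →
      FlatBd P (fun j => C * (t:ℝ) ^ ((j:ℝ) / 2 + 1 / 2 - -ε)) := by
  obtain ⟨C, hC1, hC⟩ := pinned_uniform d ε hε
  refine ⟨C, hC1, ?_⟩
  intro t ht P hpin w hw1 hw2 S hS A hA hAw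
  have ht' : (1:ℝ) ≤ t := by exact_mod_cast ht
  have h1 := flat_bound P S hS hpin A hA (by omega : Module.finrank ℝ A + (d - w) = d)
    (hC (d - w) (by omega) t ht)
  refine h1.trans ?_
  apply mul_le_mul_of_nonneg_left _ (by linarith only [hC1])
  apply Real.rpow_le_rpow_of_exponent_le ht'
  have h2 := fe_le_half (d - w)
  linarith only [h2]

/-- points sharing a dual subspace lie in a flat -/
theorem orth_of {d : ℕ} (S : Finset (EuclideanSpace ℝ (Fin d)))
    (A : Submodule ℝ (EuclideanSpace ℝ (Fin d) × ℝ)) (hA : ∀ p ∈ S, A ≤ hyp p)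
    (p₀ : EuclideanSpace ℝ (Fin d)) (hp₀ : p₀ ∈ S) :
    ∃ U : Submodule ℝ (EuclideanSpace ℝ (Fin d)), Module.finrank ℝ U = Module.finrank ℝ A ∧
      ∀ p ∈ S, p - p₀ ∈ Uᗮ := by
  set U : Submodule ℝ (EuclideanSpace ℝ (Fin d)) :=
    A.map (LinearMap.fst ℝ (EuclideanSpace ℝ (Fin d)) ℝ) with hU
  refine ⟨U, ?_, ?_⟩
  · have hinj : Function.Injective
        ((LinearMap.fst ℝ (EuclideanSpace ℝ (Fin d)) ℝ).domRestrict A) := by
      rw [injective_iff_map_eq_zero]
      rintro ⟨⟨u, c⟩, hx⟩ h0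
      have hu : u = 0 := h0
      subst hu
      have h1 := hA p₀ hp₀ hx
      rw [mem_hyp] at h1
      simp only [inner_zero_right, mul_zero] at h1
      subst h1
      rfl
    have h2 := LinearMap.finrank_range_of_inj hinj
    have h3 : LinearMap.range ((LinearMap.fst ℝ (EuclideanSpace ℝ (Fin d)) ℝ).domRestrict A) = U := by
      rw [hU, LinearMap.range_domRestrict]
    rw [h3] at h2
    exact h2
  · intro p hp
    rw [Submodule.mem_orthogonal]
    intro u hu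
    rw [hU, Submodule.mem_map] at hu
    obtain ⟨⟨u', c⟩, hx, hxu⟩ := hu
    have hxu' : u' = u := hxu
    subst hxu'
    have h1 := hA p hp hx
    have h2 := hA p₀ hp₀ hx
    rw [mem_hyp] at h1 h2
    rw [inner_sub_right, real_inner_comm, real_inner_comm p₀]
    linarith only [h1, h2]

theorem line_of {d : ℕ} (hd : 1 ≤ d) (S : Finset (EuclideanSpace ℝ (Fin d)))
    (A : Submodule ℝ (EuclideanSpace ℝ (Fin d) × ℝ)) (hA : ∀ p ∈ S, A ≤ hyp p)
    (hAw : Module.finrank ℝ A = d - 1) (p₀ : EuclideanSpace ℝ (Fin d)) (hp₀ : p₀ ∈ S) :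
    ∃ v : EuclideanSpace ℝ (Fin d), v ≠ 0 ∧ ∀ p ∈ S, ∃ r : ℝ, p = p₀ + r • v := by
  obtain ⟨U, hU1, hU2⟩ := orth_of S A hA p₀ hp₀
  have hfO : Module.finrank ℝ Uᗮ = 1 := by
    have h1 := Submodule.finrank_add_finrank_orthogonal U
    rw [finrank_euclideanSpace_fin, hU1, hAw] at h1
    omega
  obtain ⟨v, hv0, hv⟩ := finrank_eq_one_iff'.mp hfO
  refine ⟨v, ?_, ?_⟩
  · intro h
    exact hv0 (Subtype.ext h)
  · intro p hp
    obtain ⟨r, hr⟩ := hv ⟨p - p₀, hU2 p hp⟩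
    refine ⟨r, ?_⟩
    have h1 := congrArg Subtype.val hr
    simp only [Submodule.coe_smul] at h1
    rw [h1]
    abel

/-- no line contains more than `L` points of `P` -/
def LineBd {d : ℕ} (P : Finset (EuclideanSpace ℝ (Fin d))) (L : ℝ) : Prop :=
  ∀ x v : EuclideanSpace ℝ (Fin d), v ≠ 0 →
    ({p : EuclideanSpace ℝ (Fin d) | p ∈ P ∧ ∃ r : ℝ, p = x + r • v}.ncard : ℝ) ≤ L

theorem LineBd.mono {d : ℕ} {P Q : Finset (EuclideanSpace ℝ (Fin d))} {L L' : ℝ}
    (h : LineBd P L) (hQ : Q ⊆ P) (hL : L ≤ L') : LineBd Q L' := by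
  intro x v hv
  refine le_trans ?_ ((h x v hv).trans hL)
  have hfin : {p : EuclideanSpace ℝ (Fin d) | p ∈ P ∧ ∃ r : ℝ, p = x + r • v}.Finite :=
    P.finite_toSet.subset (fun p hp => hp.1)
  have hsub : {p : EuclideanSpace ℝ (Fin d) | p ∈ Q ∧ ∃ r : ℝ, p = x + r • v} ⊆
      {p : EuclideanSpace ℝ (Fin d) | p ∈ P ∧ ∃ r : ℝ, p = x + r • v} :=
    fun p hp => ⟨hQ hp.1, hp.2⟩
  exact_mod_cast Set.ncard_le_ncard hsub hfin

/-- the flats, for a set with few pinned distances and few points on lines -/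
theorem flats_lines (d : ℕ) (hd : 3 ≤ d) (ρ : ℝ) (hρ : 0 < ρ) (hρ1 : ρ ≤ 1 / 12) :
    ∃ C : ℝ, 1 ≤ C ∧ ∀ t : ℕ, 1 ≤ t →
    ∀ P : Finset (EuclideanSpace ℝ (Fin d)),
      (open scoped Classical in ∀ p ∈ P, (P.image (dist p)).card ≤ t + 1) →
      LineBd P ((t:ℝ) ^ (1 - ρ)) →
      FlatBd P (fun j => C * (t:ℝ) ^ ((j:ℝ) / 2 + 1 / 2 - ρ)) := by
  obtain ⟨C, hC1, hC⟩ := pinned_uniform d (1 / 12) (by norm_num)
  refine ⟨C, hC1, ?_⟩
  intro t ht P hpin hL w hw1 hw2 S hS A hA hAw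
  have ht' : (1:ℝ) ≤ t := by exact_mod_cast ht
  have ht0 : (0:ℝ) < t := by linarith only [ht']
  have hj : d - w = 0 ∨ d - w = 1 ∨ 2 ≤ d - w := by omega
  rcases hj with hj | hj | hj
  · have h1 := flat_bound P S hS hpin A hA (by omega : Module.finrank ℝ A + 0 = d)
      (pinned_zero t)
    refine h1.trans ?_
    simp only
    rw [hj]
    have h2 : (1:ℝ) ≤ (t:ℝ) ^ (((0:ℕ):ℝ) / 2 + 1 / 2 - ρ) :=
      Real.one_le_rpow ht' (by push_cast; linarith only [hρ1])
    nlinarith only [h2, hC1]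
  · simp only
    rw [hj]
    have h2 : (0:ℝ) < (t:ℝ) ^ (((1:ℕ):ℝ) / 2 + 1 / 2 - ρ) := Real.rpow_pos_of_pos ht0 _
    rcases S.eq_empty_or_nonempty with hSe | ⟨p₀, hp₀⟩
    · subst hSe
      rw [card_empty]
      push_cast
      push_cast at h2
      exact mul_nonneg (by linarith only [hC1]) h2.le
    · obtain ⟨v, hv0, hv⟩ := line_of (by omega) S A hA (by omega) p₀ hp₀
      have h3 : (S.card : ℝ) ≤ (t:ℝ) ^ (1 - ρ) := by
        refine le_trans ?_ (hL p₀ v hv0)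
        have hfin : {p : EuclideanSpace ℝ (Fin d) | p ∈ P ∧ ∃ r : ℝ, p = p₀ + r • v}.Finite :=
          P.finite_toSet.subset (fun p hp => hp.1)
        have hsub : (S : Set (EuclideanSpace ℝ (Fin d))) ⊆
            {p : EuclideanSpace ℝ (Fin d) | p ∈ P ∧ ∃ r : ℝ, p = p₀ + r • v} :=
          fun p hp => ⟨hS hp, hv p hp⟩
        have h4 := Set.ncard_le_ncard hsub hfin
        rw [Set.ncard_coe_finset] at h4
        exact_mod_cast h4
      have h5 : ((1:ℕ):ℝ) / 2 + 1 / 2 - ρ = 1 - ρ := by push_cast; ring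
      rw [h5] at h2 ⊢
      refine h3.trans ?_
      exact le_mul_of_one_le_left h2.le hC1
  · have h1 := flat_bound P S hS hpin A hA (by omega : Module.finrank ℝ A + (d - w) = d)
      (hC (d - w) (by omega) t ht)
    refine h1.trans ?_
    apply mul_le_mul_of_nonneg_left _ (by linarith only [hC1])
    apply Real.rpow_le_rpow_of_exponent_le ht'
    have h2 := fe_le_third (d - w) hj
    linarith only [h2, hρ1]

end Vale.Agent.P054.H978
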