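import Vale.Agent.P054.MathlibUsed
import Vale.Agent.P054.Bdl.B5
import Vale.Agent.P054.BdN.N1
import Vale.Agent.P054.H978.Axis
import Vale.Agent.P054.H978.Flats

/-!
# P054: there are few rich lines
-/

set_option autoImplicit false
set_option linter.all false

open Finset

namespace Vale.Agent.P054.H978

open Vale.Agent.P054K

theorem quad3 (A B C x y z : ℝ) (hA : A ≠ 0) (hxy : x ≠ y) (hxz : x ≠ z) (hyz : y ≠ z)
    (hx : A * x ^ 2 + B * x + C = 0) (hy : A * y ^ 2 + B * y + C = 0)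
    (hz : A * z ^ 2 + B * z + C = 0) : False := by
  have h1 : A * (x + y) + B = 0 := by
    have h : (x - y) * (A * (x + y) + B) = 0 := by linarith only [hx, hy]
    exact (mul_eq_zero.mp h).resolve_left (sub_ne_zero.mpr hxy)
  have h2 : A * (x + z) + B = 0 := by
    have h : (x - z) * (A * (x + z) + B) = 0 := by linarith only [hx, hz]
    exact (mul_eq_zero.mp h).resolve_left (sub_ne_zero.mpr hxz)
  have h3 : A * (y - z) = 0 := by linarith only [h1, h2]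
  exact (mul_ne_zero hA (sub_ne_zero.mpr hyz)) h3

open scoped Classical in
/-- the points of `P` on the line through `p` with direction `u` -/
noncomputable def onLine {d : ℕ} (P : Finset (EuclideanSpace ℝ (Fin d)))
    (p u : EuclideanSpace ℝ (Fin d)) : Finset (EuclideanSpace ℝ (Fin d)) :=
  P.filter (fun q => ∃ r : ℝ, q = p + r • u)

theorem mem_onLine {d : ℕ} (P : Finset (EuclideanSpace ℝ (Fin d)))
    (p u q : EuclideanSpace ℝ (Fin d)) : q ∈ onLine P p u ↔ q ∈ P ∧ ∃ r : ℝ, q = p + r • u := by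
  classical
  unfold onLine
  exact mem_filter

theorem norm_line {d : ℕ} (p u x₀ : EuclideanSpace ℝ (Fin d)) (hu : ‖u‖ = 1) (r : ℝ) :
    ‖p + r • u - x₀‖ ^ 2 = r ^ 2 + 2 * inner ℝ (p - x₀) u * r + ‖p - x₀‖ ^ 2 := by
  have h1 : p + r • u - x₀ = (p - x₀) + r • u := by abel
  rw [h1, norm_add_sq_real, inner_smul_right, norm_smul, hu, mul_one, Real.norm_eq_abs, sq_abs]
  ring

open scoped Classical in
/-- a line has at most two points at a given distance -/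
theorem line_fiber {d : ℕ} (S : Finset (EuclideanSpace ℝ (Fin d)))
    (p u x₀ : EuclideanSpace ℝ (Fin d)) (hu : ‖u‖ = 1) (hS : ∀ q ∈ S, ∃ r : ℝ, q = p + r • u)
    (b : ℝ) : (S.filter (fun q => dist x₀ q = b)).card ≤ 2 := by
  by_contra hcon
  push Not at hcon
  obtain ⟨q1, q2, q3, h1, h2, h3, h12, h13, h23⟩ := Finset.two_lt_card_iff.mp hcon
  rw [mem_filter] at h1 h2 h3
  obtain ⟨r1, hr1⟩ := hS q1 h1.1
  obtain ⟨r2, hr2⟩ := hS q2 h2.1
  obtain ⟨r3, hr3⟩ := hS q3 h3.1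
  have key : ∀ q r, q = p + r • u → dist x₀ q = b →
      1 * r ^ 2 + 2 * inner ℝ (p - x₀) u * r + (‖p - x₀‖ ^ 2 - b ^ 2) = 0 := by
    intro q r hq hb
    have h4 := norm_line p u x₀ hu r
    rw [← hq, ← dist_eq_norm, dist_comm, hb] at h4
    linarith only [h4]
  refine quad3 1 _ _ r1 r2 r3 one_ne_zero ?_ ?_ ?_ (key q1 r1 hr1 h1.2) (key q2 r2 hr2 h2.2)
    (key q3 r3 hr3 h3.2)
  · intro h; exact h12 (by rw [hr1, hr2, h])
  · intro h; exact h13 (by rw [hr1, hr3, h])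
  · intro h; exact h23 (by rw [hr2, hr3, h])

/-- the position determines the distance to the base point -/
theorem pos_norm {d : ℕ} (x₀ w q : EuclideanSpace ℝ (Fin d)) (hw : ‖w‖ = 1) :
    ‖q - x₀‖ ^ 2 = pos x₀ w q 0 ^ 2 + pos x₀ w q 1 ^ 2 := by
  have h1 := pyth w (q - x₀) hw 0
  rw [zero_smul, sub_zero, sub_zero] at h1
  rw [pos_zero, pos_one]
  exact h1

open scoped Classical in
/-- at least half as many positions as points on a line -/
theorem card_pos_line {d : ℕ} (S : Finset (EuclideanSpace ℝ (Fin d)))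
    (p u x₀ w : EuclideanSpace ℝ (Fin d)) (hu : ‖u‖ = 1) (hw : ‖w‖ = 1)
    (hS : ∀ q ∈ S, ∃ r : ℝ, q = p + r • u) : S.card ≤ 2 * (S.image (pos x₀ w)).card := by
  apply Finset.card_le_mul_card_image S 2
  intro b _
  refine le_trans (card_le_card ?_) (line_fiber S p u x₀ hu hS (Real.sqrt (b 0 ^ 2 + b 1 ^ 2)))
  intro q hq
  rw [mem_filter] at hq ⊢
  refine ⟨hq.1, ?_⟩
  rw [← hq.2, ← pos_norm x₀ w q hw, Real.sqrt_sq (norm_nonneg _), dist_comm, dist_eq_norm]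

open scoped Classical in
/-- two lines with different angles have at most two common positions -/
theorem inter_pos {d : ℕ} (S S' : Finset (EuclideanSpace ℝ (Fin d)))
    (p u p' u' x₀ w : EuclideanSpace ℝ (Fin d)) (hu : ‖u‖ = 1) (hu' : ‖u'‖ = 1) (hw : ‖w‖ = 1)
    (hS : ∀ q ∈ S, ∃ r : ℝ, q = p + r • u) (hS' : ∀ q ∈ S', ∃ r : ℝ, q = p' + r • u')
    (hne : (inner ℝ w u : ℝ) ^ 2 ≠ (inner ℝ w u' : ℝ) ^ 2) :
    (S.image (pos x₀ w) ∩ S'.image (pos x₀ w)).card ≤ 2 := by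
  by_contra hcon
  push Not at hcon
  obtain ⟨b1, b2, b3, h1, h2, h3, h12, h13, h23⟩ := Finset.two_lt_card_iff.mp hcon
  obtain ⟨κ, hκ⟩ : ∃ κ : ℝ, κ = inner ℝ w u := ⟨_, rfl⟩
  obtain ⟨κ', hκ'⟩ : ∃ κ' : ℝ, κ' = inner ℝ w u' := ⟨_, rfl⟩
  obtain ⟨α, hα⟩ : ∃ α : ℝ, α = inner ℝ w (p - x₀) := ⟨_, rfl⟩
  obtain ⟨α', hα'⟩ : ∃ α' : ℝ, α' = inner ℝ w (p' - x₀) := ⟨_, rfl⟩
  obtain ⟨β, hβ⟩ : ∃ β : ℝ, β = inner ℝ (p - x₀) u := ⟨_, rfl⟩
  obtain ⟨β', hβ'⟩ : ∃ β' : ℝ, β' = inner ℝ (p' - x₀) u' := ⟨_, rfl⟩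
  obtain ⟨γ, hγ⟩ : ∃ γ : ℝ, γ = ‖p - x₀‖ ^ 2 := ⟨_, rfl⟩
  obtain ⟨γ', hγ'⟩ : ∃ γ' : ℝ, γ' = ‖p' - x₀‖ ^ 2 := ⟨_, rfl⟩
  rw [← hκ, ← hκ'] at hne
  have key : ∀ b ∈ S.image (pos x₀ w) ∩ S'.image (pos x₀ w), ∃ r r' : ℝ,
      b 0 = α + κ * r ∧ b 0 = α' + κ' * r' ∧ b 0 ^ 2 + b 1 ^ 2 = r ^ 2 + 2 * β * r + γ ∧
      b 0 ^ 2 + b 1 ^ 2 = r' ^ 2 + 2 * β' * r' + γ' ∧ b = pos x₀ w (p + r • u) ∧
      b = pos x₀ w (p' + r' • u') := by
    intro b hb
    rw [mem_inter, mem_image, mem_image] at hb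
    obtain ⟨⟨q, hq, hqb⟩, ⟨q', hq', hqb'⟩⟩ := hb
    obtain ⟨r, hr⟩ := hS q hq
    obtain ⟨r', hr'⟩ := hS' q' hq'
    refine ⟨r, r', ?_, ?_, ?_, ?_, ?_, ?_⟩
    · rw [← hqb, pos_zero, hr, hα, hκ]
      have : p + r • u - x₀ = (p - x₀) + r • u := by abel
      rw [this, inner_add_right, inner_smul_right]
      ring
    · rw [← hqb', pos_zero, hr', hα', hκ']
      have : p' + r' • u' - x₀ = (p' - x₀) + r' • u' := by abel
      rw [this, inner_add_right, inner_smul_right]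
      ring
    · rw [← hqb, ← pos_norm x₀ w q hw, hr, norm_line p u x₀ hu r, hβ, hγ]
    · rw [← hqb', ← pos_norm x₀ w q' hw, hr', norm_line p' u' x₀ hu' r', hβ', hγ']
    · rw [← hqb, hr]
    · rw [← hqb', hr']
  obtain ⟨r1, r1', a1, a1', c1, c1', e1, e1'⟩ := key b1 h1
  obtain ⟨r2, r2', a2, a2', c2, c2', e2, e2'⟩ := key b2 h2
  obtain ⟨r3, r3', a3, a3', c3, c3', e3, e3'⟩ := key b3 h3
  by_cases hκ0 : κ = 0
  · have hκ'0 : κ' ≠ 0 := by
      intro h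
      apply hne
      rw [hκ0, h]
    apply h12
    have h4 : κ' * r1' = κ' * r2' := by
      rw [hκ0] at a1 a2
      linarith only [a1, a2, a1', a2']
    have h5 := mul_left_cancel₀ hκ'0 h4
    rw [e1', e2', h5]
  by_cases hκ'0 : κ' = 0
  · apply h12
    have h4 : κ * r1 = κ * r2 := by
      rw [hκ'0] at a1' a2'
      linarith only [a1, a2, a1', a2']
    have h5 := mul_left_cancel₀ hκ0 h4
    rw [e1, e2, h5]
  have hdist : ∀ (b c : EuclideanSpace ℝ (Fin 2)) (r s : ℝ), b 0 = α + κ * r → c 0 = α + κ * s →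
      b = pos x₀ w (p + r • u) → c = pos x₀ w (p + s • u) → b ≠ c → b 0 ≠ c 0 := by
    intro b c r s hb hc hb' hc' hbc h
    apply hbc
    have h4 : κ * r = κ * s := by linarith only [hb, hc, h]
    have h5 := mul_left_cancel₀ hκ0 h4
    rw [hb', hc', h5]
  have hq : ∀ (b : EuclideanSpace ℝ (Fin 2)) (r r' : ℝ), b 0 = α + κ * r → b 0 = α' + κ' * r' →
      b 0 ^ 2 + b 1 ^ 2 = r ^ 2 + 2 * β * r + γ → b 0 ^ 2 + b 1 ^ 2 = r' ^ 2 + 2 * β' * r' + γ' →
      (κ' ^ 2 - κ ^ 2) * (b 0) ^ 2 + (κ' ^ 2 * (-2 * α + 2 * β * κ) -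
        κ ^ 2 * (-2 * α' + 2 * β' * κ')) * b 0 + (κ' ^ 2 * (α ^ 2 - 2 * β * κ * α + κ ^ 2 * γ) -
        κ ^ 2 * (α' ^ 2 - 2 * β' * κ' * α' + κ' ^ 2 * γ')) = 0 := by
    intro b r r' hb hb' hc hc'
    obtain ⟨R, hR⟩ : ∃ R : ℝ, R = b 0 ^ 2 + b 1 ^ 2 := ⟨_, rfl⟩
    rw [← hR] at hc hc'
    have f1 : κ' ^ 2 * (κ ^ 2 * R) = κ' ^ 2 * ((b 0 - α) ^ 2 + 2 * β * κ * (b 0 - α) + κ ^ 2 * γ) := by
      rw [hc, hb]; ring
    have f2 : κ' ^ 2 * (κ ^ 2 * R) = κ ^ 2 * ((b 0 - α') ^ 2 + 2 * β' * κ' * (b 0 - α') + κ' ^ 2 * γ') := by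
      rw [hc', hb']; ring
    linear_combination f2 - f1
  exact quad3 _ _ _ (b1 0) (b2 0) (b3 0) (sub_ne_zero.mpr (Ne.symm hne))
    (hdist b1 b2 r1 r2 a1 a2 e1 e2 h12) (hdist b1 b3 r1 r3 a1 a3 e1 e3 h13)
    (hdist b2 b3 r2 r3 a2 a3 e2 e3 h23) (hq b1 r1 r1' a1 a1' c1 c1') (hq b2 r2 r2' a2 a2' c2 c2')
    (hq b3 r3 r3' a3 a3' c3 c3')

open scoped Classical in
/-- relative to a rich axis there are few classes of rich lines -/
theorem few_classes (d : ℕ) (ρ : ℝ) (hρ : 0 < ρ) (hρ1 : ρ ≤ 1 / 20) :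
    ∃ T0 : ℝ, 1 ≤ T0 ∧ ∀ t : ℕ, T0 ≤ t → ∀ P : Finset (EuclideanSpace ℝ (Fin d)),
      (∀ p ∈ P, (P.image (dist p)).card ≤ t + 1) →
      ∀ x₀ w : EuclideanSpace ℝ (Fin d), ‖w‖ = 1 → (t:ℝ) ^ (1 - ρ) ≤ (onLine P x₀ w).card →
      ∀ (I : Finset ℝ) (c v : ℝ → EuclideanSpace ℝ (Fin d)),
      (∀ i ∈ I, ‖v i‖ = 1 ∧ (t:ℝ) ^ (1 - ρ) ≤ (onLine P (c i) (v i)).card) →
      (∀ i ∈ I, ∀ j ∈ I, i ≠ j → (((onLine P (c i) (v i)).image (pos x₀ w)) ∩
        ((onLine P (c j) (v j)).image (pos x₀ w))).card ≤ 2) →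
      (I.card : ℝ) ≤ 4 * (t:ℝ) ^ (7 * ρ) := by
  obtain ⟨Cn, hCn0, hCn⟩ := main_pinned d 1 one_pos
  obtain ⟨T1, hT1, hax⟩ := axis_bound ρ Cn (fe d + 1) hρ (by linarith only [hρ1]) hCn0.le
  obtain ⟨T2, hT2, hev2⟩ := ev_rpow 16 (1 + 6 * ρ) (2 - 2 * ρ) (by linarith only [hρ1])
  refine ⟨max T1 T2, hT1.trans (le_max_left _ _), ?_⟩
  intro t ht P hpin x₀ w hw hrich I c v hI hint
  have hT1' : T1 ≤ t := (le_max_left _ _).trans ht
  have hT2' : T2 ≤ t := (le_max_right _ _).trans ht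
  have hT : (1:ℝ) ≤ t := hT1.trans hT1'
  have hT0 : (0:ℝ) < t := by linarith only [hT]
  have ht1 : 1 ≤ t := by exact_mod_cast hT
  obtain ⟨W, hW⟩ : ∃ W, W = P.image (pos x₀ w) := ⟨_, rfl⟩
  obtain ⟨Y, hY⟩ : ∃ Y, Y = (onLine P x₀ w).image (pos x₀ w) := ⟨_, rfl⟩
  have hsub : onLine P x₀ w ⊆ P := fun q hq => ((mem_onLine P x₀ w q).mp hq).1
  have hYW : Y ⊆ W := by rw [hY, hW]; exact image_subset_image hsub
  have hYcard : Y.card = (onLine P x₀ w).card := by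
    rw [hY]
    apply Finset.card_image_of_injOn
    intro q hq q' hq' hqq
    rw [mem_coe, mem_onLine] at hq hq'
    obtain ⟨_, r, hr⟩ := hq
    have h1 := dist_pos x₀ w hw r q'
    rw [← hr, hqq, dist_self] at h1
    exact dist_eq_zero.mp h1.symm
  have hWb : (W.card : ℝ) ≤ (t:ℝ) ^ (1 + 6 * ρ) := by
    apply hax t hT1' W Y hYW
    · intro z hz
      rw [hW, mem_image] at hz
      obtain ⟨q, _, rfl⟩ := hz
      rw [pos_one]; exact norm_nonneg _
    · intro z hz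
      rw [hY, mem_image] at hz
      obtain ⟨q, hq, rfl⟩ := hz
      obtain ⟨_, r, hr⟩ := (mem_onLine P x₀ w q).mp hq
      rw [hr]; exact (pos_axis x₀ w hw r).2
    · intro z hz
      rw [hY, mem_image] at hz
      obtain ⟨q, hq, rfl⟩ := hz
      obtain ⟨hqP, r, hr⟩ := (mem_onLine P x₀ w q).mp hq
      refine le_trans (card_le_card ?_) (hpin q hqP)
      intro δ hδ
      rw [mem_image] at hδ
      obtain ⟨z', hz', rfl⟩ := hδ
      rw [hW, mem_image] at hz'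
      obtain ⟨q', hq', rfl⟩ := hz'
      have h1 := dist_pos x₀ w hw r q'
      rw [← hr] at h1
      rw [h1]
      exact mem_image_of_mem _ hq'
    · rw [hYcard]; exact hrich
    · have h1 : W.card ≤ P.card := by rw [hW]; exact card_image_le
      have h2 := hCn t ht1 P (fun q hq => by convert hpin q hq)
      have h3 : (W.card : ℝ) ≤ P.card := by exact_mod_cast h1
      exact h3.trans h2
  have hp1 : 0 < (t:ℝ) ^ (1 - ρ) := Real.rpow_pos_of_pos hT0 _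
  have hpack := Vale.Agent.P054.Y.G.packing W I
    (fun i => (onLine P (c i) (v i)).image (pos x₀ w))
    (fun i hi => by
      rw [hW]
      exact image_subset_image (fun q hq => ((mem_onLine P _ _ q).mp hq).1))
    (h := (t:ℝ) ^ (1 - ρ) / 2) (r := 2) (by norm_num) (by linarith only [hp1])
    (fun i hi => by
      obtain ⟨h1, h2⟩ := hI i hi
      have h3 := card_pos_line (onLine P (c i) (v i)) (c i) (v i) x₀ w h1 hw
        (fun q hq => ((mem_onLine P _ _ q).mp hq).2)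
      have h4 : ((onLine P (c i) (v i)).card : ℝ) ≤
          2 * ((onLine P (c i) (v i)).image (pos x₀ w)).card := by exact_mod_cast h3
      linarith only [h2, h4])
    (fun i hi j hj hij => by
      have := hint i hi j hj hij
      exact_mod_cast this)
    (by
      have h1 := hev2 t hT2'
      have h2 : ((t:ℝ) ^ (1 - ρ) / 2) ^ 2 = (t:ℝ) ^ (2 - 2 * ρ) / 4 := by
        rw [div_pow, ← Real.rpow_natCast ((t:ℝ) ^ (1 - ρ)) 2, ← Real.rpow_mul hT0.le]
        congr 1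
        · congr 1; push_cast; ring
        · norm_num
      rw [h2]
      linarith only [h1, hWb])
  have h1 : (t:ℝ) ^ (1 + 6 * ρ) = (t:ℝ) ^ (7 * ρ) * (t:ℝ) ^ (1 - ρ) := by
    rw [← Real.rpow_add hT0]; congr 1; ring
  have h2 : (I.card : ℝ) * (t:ℝ) ^ (1 - ρ) ≤ (4 * (t:ℝ) ^ (7 * ρ)) * (t:ℝ) ^ (1 - ρ) := by
    rw [h1] at hWb
    linarith only [hpack, hWb]
  exact le_of_mul_le_mul_right h2 hp1

/-- an inner product of unit vectors is determined by its square up to sign -/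
theorem dist_unit {d : ℕ} (u v : EuclideanSpace ℝ (Fin d)) (hu : ‖u‖ = 1) (hv : ‖v‖ = 1) :
    dist u v = Real.sqrt (2 - 2 * Real.sqrt ((inner ℝ u v : ℝ) ^ 2)) ∨
    dist u v = Real.sqrt (2 + 2 * Real.sqrt ((inner ℝ u v : ℝ) ^ 2)) := by
  have h1 : dist u v ^ 2 = 2 - 2 * inner ℝ u v := by
    rw [dist_eq_norm, norm_sub_sq_real, hu, hv]; ring
  have h2 : dist u v = Real.sqrt (2 - 2 * inner ℝ u v) := by
    rw [← h1, Real.sqrt_sq dist_nonneg]
  rw [Real.sqrt_sq_eq_abs]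
  rcases abs_cases (inner ℝ u v : ℝ) with ⟨h3, _⟩ | ⟨h3, _⟩
  · left; rw [h3]; exact h2
  · right; rw [h3, h2]; congr 1; ring

open scoped Classical in
/-- **few points on rich lines** -/
theorem rich_few (d : ℕ) (ρ : ℝ) (hρ : 0 < ρ) (hρ1 : ρ ≤ 1 / 20) :
    ∃ C T0 : ℝ, 0 ≤ C ∧ 1 ≤ T0 ∧ ∀ t : ℕ, T0 ≤ t → ∀ P : Finset (EuclideanSpace ℝ (Fin d)),
      (∀ p ∈ P, (P.image (dist p)).card ≤ t + 1) →
      ∀ R ⊆ P, (∀ p ∈ R, ∃ u : EuclideanSpace ℝ (Fin d), ‖u‖ = 1 ∧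
        (t:ℝ) ^ (1 - ρ) ≤ (onLine P p u).card) →
      (R.card : ℝ) ≤ C * (t:ℝ) ^ (1 + 14 * ((d:ℝ) + 1) * ρ) := by
  obtain ⟨Cn, hCn0, hCn⟩ := main_pinned d 1 one_pos
  obtain ⟨T1, hT1, hcl⟩ := few_classes d ρ hρ hρ1
  have hfe : fe d + 1 ≤ (d:ℝ) + 1 := by linarith only [fe_le_self d]
  have hd0 : (0:ℝ) ≤ d := Nat.cast_nonneg d
  refine ⟨(Cn * 16 ^ ((d:ℝ) + 1)) ^ 2 * 4, T1, by positivity, hT1, ?_⟩
  intro t ht P hpin R hRP hR
  have hT : (1:ℝ) ≤ t := hT1.trans ht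
  have hT0 : (0:ℝ) < t := by linarith only [hT]
  have ht1 : 1 ≤ t := by exact_mod_cast hT
  choose! u hu1 hu2 using hR
  have hp7 : 1 ≤ (t:ℝ) ^ (7 * ρ) := Real.one_le_rpow hT (by linarith only [hρ])
  obtain ⟨t', ht'⟩ : ∃ t' : ℕ, t' = ⌈8 * (t:ℝ) ^ (7 * ρ)⌉₊ := ⟨_, rfl⟩
  have ht'1 : 8 * (t:ℝ) ^ (7 * ρ) ≤ t' := by rw [ht']; exact Nat.le_ceil _
  have ht'2 : (t':ℝ) ≤ 16 * (t:ℝ) ^ (7 * ρ) := by
    have := Nat.ceil_lt_add_one (show 0 ≤ 8 * (t:ℝ) ^ (7 * ρ) by linarith only [hp7])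
    rw [← ht'] at this
    linarith only [hp7, this]
  have ht'0 : (1:ℝ) ≤ t' := by linarith only [ht'1, hp7]
  have ht'N : 1 ≤ t' := by exact_mod_cast ht'0
  obtain ⟨G, hG⟩ : ∃ G : ℝ, G = Cn * 16 ^ ((d:ℝ) + 1) * (t:ℝ) ^ (7 * ((d:ℝ) + 1) * ρ) := ⟨_, rfl⟩
  have hPin : PinnedBy d t' G := by
    apply pinnedBy_mono le_rfl _ (hCn t' ht'N)
    rw [hG, mul_assoc]
    apply mul_le_mul_of_nonneg_left _ hCn0.le
    calc (t':ℝ) ^ (fe d + 1) ≤ (t':ℝ) ^ ((d:ℝ) + 1) :=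
          Real.rpow_le_rpow_of_exponent_le ht'0 hfe
      _ ≤ (16 * (t:ℝ) ^ (7 * ρ)) ^ ((d:ℝ) + 1) :=
          Real.rpow_le_rpow (by linarith only [ht'0]) ht'2 (by linarith only [hd0])
      _ = 16 ^ ((d:ℝ) + 1) * (t:ℝ) ^ (7 * ((d:ℝ) + 1) * ρ) := by
          rw [Real.mul_rpow (by norm_num) (by linarith only [hp7]), ← Real.rpow_mul hT0.le]
          congr 2; ring
  have hG0 : 0 ≤ G := by rw [hG]; positivity
  -- the directions
  obtain ⟨D, hD⟩ : ∃ D, D = R.image u := ⟨_, rfl⟩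
  have hDcard : (D.card : ℝ) ≤ G := by
    apply hPin
    intro w hwD
    rw [hD, mem_image] at hwD
    obtain ⟨p₀, hp₀, rfl⟩ := hwD
    obtain ⟨I, hI⟩ : ∃ I : Finset ℝ, I = R.image (fun p => (inner ℝ (u p₀) (u p) : ℝ) ^ 2) := ⟨_, rfl⟩
    have hex : ∀ i : ℝ, ∃ p : EuclideanSpace ℝ (Fin d), i ∈ I →
        p ∈ R ∧ (inner ℝ (u p₀) (u p) : ℝ) ^ 2 = i := by
      intro i
      by_cases h : i ∈ I
      · have h' := h
        rw [hI, mem_image] at h'
        obtain ⟨p, hp, hpi⟩ := h'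
        exact ⟨p, fun _ => ⟨hp, hpi⟩⟩
      · exact ⟨0, fun h' => absurd h' h⟩
    choose c hc using hex
    have hIc := hcl t ht P hpin p₀ (u p₀) (hu1 p₀ hp₀) (hu2 p₀ hp₀) I c (fun i => u (c i))
      (fun i hi => ⟨hu1 _ (hc i hi).1, hu2 _ (hc i hi).1⟩)
      (fun i hi j hj hij => inter_pos _ _ (c i) (u (c i)) (c j) (u (c j)) p₀ (u p₀)
        (hu1 _ (hc i hi).1) (hu1 _ (hc j hj).1) (hu1 p₀ hp₀)
        (fun q hq => ((mem_onLine P _ _ q).mp hq).2) (fun q hq => ((mem_onLine P _ _ q).mp hq).2)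
        (by rw [(hc i hi).2, (hc j hj).2]; exact hij))
    have hsub : D.image (dist (u p₀)) ⊆
        I.image (fun i => Real.sqrt (2 - 2 * Real.sqrt i)) ∪
        I.image (fun i => Real.sqrt (2 + 2 * Real.sqrt i)) := by
      intro δ hδ
      rw [hD, mem_image] at hδ
      obtain ⟨v, hv, rfl⟩ := hδ
      rw [mem_image] at hv
      obtain ⟨p, hp, rfl⟩ := hv
      have hpI : (inner ℝ (u p₀) (u p) : ℝ) ^ 2 ∈ I := by
        rw [hI]; exact mem_image_of_mem (fun p => (inner ℝ (u p₀) (u p) : ℝ) ^ 2) hp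
      rw [mem_union, mem_image, mem_image]
      rcases dist_unit (u p₀) (u p) (hu1 _ hp₀) (hu1 _ hp) with h | h
      · left; exact ⟨_, hpI, h.symm⟩
      · right; exact ⟨_, hpI, h.symm⟩
    have h1 : (D.image (dist (u p₀))).card ≤ 2 * I.card := by
      refine (card_le_card hsub).trans ((card_union_le _ _).trans ?_)
      have h2 : (I.image (fun i => Real.sqrt (2 - 2 * Real.sqrt i))).card ≤ I.card := card_image_le
      have h3 : (I.image (fun i => Real.sqrt (2 + 2 * Real.sqrt i))).card ≤ I.card := card_image_le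
      omega
    have h2 : ((D.image (dist (u p₀))).card : ℝ) ≤ t' := by
      have h3 : ((D.image (dist (u p₀))).card : ℝ) ≤ 2 * I.card := by exact_mod_cast h1
      linarith only [h3, hIc, ht'1]
    have h3 : (D.image (dist (u p₀))).card ≤ t' := by exact_mod_cast h2
    exact h3.trans (Nat.le_succ _)
  -- one direction
  have hfib : ∀ w ∈ D, ((R.filter (fun p => u p = w)).card : ℝ) ≤ G * (4 * t) := by
    intro w hw
    obtain ⟨Rw, hRw⟩ : ∃ Rw, Rw = R.filter (fun p => u p = w) := ⟨_, rfl⟩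
    rw [← hRw]
    have hw1 : ‖w‖ = 1 := by
      rw [hD, mem_image] at hw
      obtain ⟨p, hp, rfl⟩ := hw
      exact hu1 p hp
    obtain ⟨q, hq⟩ : ∃ q : EuclideanSpace ℝ (Fin d) → EuclideanSpace ℝ (Fin d),
        q = fun p => p - (inner ℝ w p : ℝ) • w := ⟨_, rfl⟩
    have hqd : ∀ p₀ p, dist (q p₀) (q p) = pos p₀ w p 1 := by
      intro p₀ p
      rw [pos_one, dist_comm, dist_eq_norm, hq]
      simp only
      congr 1
      rw [inner_sub_right, sub_smul]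
      abel
    have hmem : ∀ p ∈ Rw, p ∈ R ∧ u p = w := by
      intro p hp
      rw [hRw, mem_filter] at hp
      exact hp
    have hQ : ((Rw.image q).card : ℝ) ≤ G := by
      apply hPin
      intro z hz
      rw [mem_image] at hz
      obtain ⟨p₀, hp₀, rfl⟩ := hz
      obtain ⟨hp₀R, hp₀w⟩ := hmem p₀ hp₀
      obtain ⟨I, hI⟩ : ∃ I : Finset ℝ, I = (Rw.image q).image (dist (q p₀)) := ⟨_, rfl⟩
      have hex : ∀ i : ℝ, ∃ p : EuclideanSpace ℝ (Fin d), i ∈ I →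
          p ∈ Rw ∧ pos p₀ w p 1 = i := by
        intro i
        by_cases h : i ∈ I
        · have h' := h
          rw [hI, mem_image] at h'
          obtain ⟨z, hz, hzi⟩ := h'
          rw [mem_image] at hz
          obtain ⟨p, hp, hpz⟩ := hz
          refine ⟨p, fun _ => ⟨hp, ?_⟩⟩
          rw [← hqd, hpz]; exact hzi
        · exact ⟨0, fun h' => absurd h' h⟩
      choose c hc using hex
      have hpos1 : ∀ i ∈ I, ∀ b ∈ (onLine P (c i) w).image (pos p₀ w), b 1 = i := by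
        intro i hi b hb
        rw [mem_image] at hb
        obtain ⟨y, hy, rfl⟩ := hb
        obtain ⟨_, r, hr⟩ := (mem_onLine P _ _ y).mp hy
        rw [← hqd, ← (hc i hi).2, ← hqd]
        congr 1
        rw [hq, hr]
        simp only
        rw [inner_add_right, inner_smul_right, real_inner_self_eq_norm_sq, hw1, add_smul]
        simp
      have hIc := hcl t ht P hpin p₀ w hw1 (by rw [← hp₀w]; exact hu2 p₀ hp₀R) I c (fun _ => w)
        (fun i hi => ⟨hw1, by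
          obtain ⟨h1, h2⟩ := hmem _ (hc i hi).1
          have h3 := hu2 _ h1
          rw [h2] at h3
          exact h3⟩)
        (fun i hi j hj hij => by
          rw [Finset.card_eq_zero.mpr]
          · norm_num
          · rw [← Finset.disjoint_iff_inter_eq_empty, Finset.disjoint_left]
            intro b hb hb'
            exact hij ((hpos1 i hi b hb).symm.trans (hpos1 j hj b hb')))
      rw [← hI]
      have h2 : (I.card : ℝ) ≤ t' := by linarith only [hIc, ht'1, hp7]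
      have h3 : I.card ≤ t' := by exact_mod_cast h2
      exact h3.trans (Nat.le_succ _)
    -- the fibres of `q`
    have hfq : ∀ z ∈ Rw.image q, (Rw.filter (fun p => q p = z)).card ≤ 2 * (t + 1) := by
      intro z hz
      rw [mem_image] at hz
      obtain ⟨p₀, hp₀, rfl⟩ := hz
      obtain ⟨hp₀R, hp₀w⟩ := hmem p₀ hp₀
      obtain ⟨S, hS⟩ : ∃ S, S = Rw.filter (fun p => q p = q p₀) := ⟨_, rfl⟩
      rw [← hS]
      have hline : ∀ y ∈ S, ∃ r : ℝ, y = p₀ + r • w := by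
        intro y hy
        rw [hS, mem_filter] at hy
        refine ⟨inner ℝ w y - inner ℝ w p₀, ?_⟩
        have h1 := hy.2
        rw [hq] at h1
        simp only at h1
        rw [sub_smul]
        have h2 : y = (p₀ - (inner ℝ w p₀ : ℝ) • w) + (inner ℝ w y : ℝ) • w := eq_add_of_sub_eq h1
        refine h2.trans ?_
        abel
      have h1 : S.card ≤ 2 * (S.image (dist p₀)).card := by
        apply Finset.card_le_mul_card_image S 2
        intro b _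
        exact line_fiber S p₀ w p₀ hw1 hline b
      have h2 : S.image (dist p₀) ⊆ P.image (dist p₀) := by
        apply image_subset_image
        intro y hy
        rw [hS, mem_filter] at hy
        exact hRP (hmem y hy.1).1
      have h3 := (card_le_card h2).trans (hpin p₀ (hRP hp₀R))
      omega
    have h1 : Rw.card ≤ 2 * (t + 1) * (Rw.image q).card := Finset.card_le_mul_card_image Rw _ hfq
    have h2 : (Rw.card : ℝ) ≤ 2 * (t + 1) * (Rw.image q).card := by exact_mod_cast h1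
    have h3 : (2:ℝ) * (t + 1) * (Rw.image q).card ≤ (4 * t) * G :=
      mul_le_mul (by linarith only [hT]) hQ (Nat.cast_nonneg _) (by linarith only [hT])
    linarith only [h2, h3]
  have h1 : (R.card : ℝ) = ∑ w ∈ D, ((R.filter (fun p => u p = w)).card : ℝ) := by
    have h2 : R.card = ∑ w ∈ D, (R.filter (fun p => u p = w)).card :=
      Finset.card_eq_sum_card_fiberwise (fun p hp => by rw [hD]; exact mem_image_of_mem u hp)
    exact_mod_cast h2
  have h2 : (R.card : ℝ) ≤ D.card * (G * (4 * t)) := by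
    rw [h1]
    refine (Finset.sum_le_card_nsmul _ _ _ hfib).trans ?_
    rw [nsmul_eq_mul]
  have h3 : (D.card : ℝ) * (G * (4 * t)) ≤ G * (G * (4 * t)) :=
    mul_le_mul_of_nonneg_right hDcard (mul_nonneg hG0 (by linarith only [hT]))
  refine h2.trans (h3.trans (le_of_eq ?_))
  have h4 : (t:ℝ) ^ (1 + 14 * ((d:ℝ) + 1) * ρ) =
      t * ((t:ℝ) ^ (7 * ((d:ℝ) + 1) * ρ) * (t:ℝ) ^ (7 * ((d:ℝ) + 1) * ρ)) := by
    rw [← Real.rpow_add hT0, ← Real.rpow_one_add' hT0.le]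
    · congr 1; ring
    · have : 0 ≤ 7 * ((d:ℝ) + 1) * ρ := by positivity
      linarith only [this]
  rw [h4, hG]
  ring

end Vale.Agent.P054.H978
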