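import Vale.Agent.P054.MathlibUsed
import Vale.Agent.P054.Bdl.B5
import Vale.Agent.P054.H978.Rich
import Vale.Agent.P054.H978.Flats
import Vale.Agent.P054.H978.Step

/-!
# P054: distinct distances of sets on hypersurfaces
-/

set_option autoImplicit false
set_option linter.all false

open Finset

namespace Vale.Agent.P054.H978

open Vale.Agent.P054K

open scoped Classical in
/-- a set on a hypersurface with few pinned distances has fewer than `t^(d/2)` points -/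
theorem hyp_bound (d : ℕ) (hd : 3 ≤ d) : ∃ σ η T0 : ℝ, 0 < σ ∧ σ ≤ 1 / 4 ∧ 0 < η ∧ 1 ≤ T0 ∧
    ∀ t : ℕ, T0 ≤ t → ∀ e : ℕ, 1 ≤ e → (e:ℝ) ≤ (t:ℝ) ^ η →
    ∀ (P : Finset (EuclideanSpace ℝ (Fin d))) (f : MvPolynomial (Fin d) ℝ),
      (∀ p ∈ P, (P.image (dist p)).card ≤ t + 1) → f ≠ 0 → f.totalDegree ≤ e →
      (∀ p ∈ P, MvPolynomial.eval (fun i => p i) f = 0) →
      (P.card : ℝ) ≤ 3 * (t:ℝ) ^ ((d:ℝ) / 2 - σ) := by
  have hD : (3:ℝ) ≤ d := by exact_mod_cast hd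
  have hd1 : (0:ℝ) < (d:ℝ) + 1 := by linarith only [hD]
  obtain ⟨ρ, hρ⟩ : ∃ ρ : ℝ, ρ = 1 / (56 * ((d:ℝ) + 1)) := ⟨_, rfl⟩
  have hρ0 : 0 < ρ := by rw [hρ]; positivity
  have hρd : 56 * (((d:ℝ) + 1) * ρ) = 1 := by
    rw [hρ]; field_simp
  have hρd4 : 4 * ρ ≤ ((d:ℝ) + 1) * ρ := mul_le_mul_of_nonneg_right (by linarith only [hD]) hρ0.le
  have hρ1 : ρ ≤ 1 / 20 := by linarith only [hρd, hρd4]
  obtain ⟨θ, hθ⟩ : ∃ θ : ℝ, θ = ρ / (4 * ((d:ℝ) + 1)) := ⟨_, rfl⟩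
  have hθ0 : 0 < θ := by rw [hθ]; positivity
  have hθd : 4 * (((d:ℝ) + 1) * θ) = ρ := by
    rw [hθ]; field_simp
  have hθd4 : 4 * θ ≤ ((d:ℝ) + 1) * θ := mul_le_mul_of_nonneg_right (by linarith only [hD]) hθ0.le
  obtain ⟨σ, hσ⟩ : ∃ σ : ℝ, σ = θ / 2 := ⟨_, rfl⟩
  have hdθ : θ ≤ ((d:ℝ) - 2) * θ := by
    have : 1 * θ ≤ ((d:ℝ) - 2) * θ := mul_le_mul_of_nonneg_right (by linarith only [hD]) hθ0.le
    linarith only [this]
  obtain ⟨η, hη0, hcore⟩ := core d hd θ ρ ((d:ℝ) / 2 - σ) hθ0.le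
    (by linarith only [hθd, hθd4, hρ1]) (by linarith only [hdθ, hσ, hθ0])
    (by linarith only [hθd, hσ, hθ0, hθd4, hρ0])
    (by linarith only [hθd, hσ, hθ0, hθd4, hρ1, hD])
  obtain ⟨C1, hC1, hflat⟩ := flats_lines d hd ρ hρ0 (by linarith only [hρd, hρd4])
  obtain ⟨T1, hT1, hcore'⟩ := hcore C1 (by linarith only [hC1])
  obtain ⟨C2, T2, hC2, hT2, hrich⟩ := rich_few d ρ hρ0 hρ1
  obtain ⟨T3, hT3, hev⟩ := ev_rpow C2 (1 + 14 * ((d:ℝ) + 1) * ρ) ((d:ℝ) / 2 - σ) (by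
    linarith only [hρd, hσ, hθd, hθd4, hρ1, hD, hθ0])
  refine ⟨σ, η, max (max T1 T2) T3, by linarith only [hσ, hθ0],
    by linarith only [hσ, hθd, hθd4, hρ1, hθ0], hη0,
    hT1.trans ((le_max_left _ _).trans (le_max_left _ _)), ?_⟩
  intro t ht e he1 heT P f hpin hf he hP
  have hT1' : T1 ≤ t := ((le_max_left _ _).trans (le_max_left _ _)).trans ht
  have hT2' : T2 ≤ t := ((le_max_right _ _).trans (le_max_left _ _)).trans ht
  have hT3' : T3 ≤ t := (le_max_right _ _).trans ht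
  have hT : (1:ℝ) ≤ t := hT1.trans hT1'
  have ht1 : 1 ≤ t := by exact_mod_cast hT
  obtain ⟨R, hR⟩ : ∃ R, R = P.filter (fun p => ∃ u : EuclideanSpace ℝ (Fin d), ‖u‖ = 1 ∧
        (t:ℝ) ^ (1 - ρ) ≤ (onLine P p u).card) := ⟨_, rfl⟩
  have hRP : R ⊆ P := by rw [hR]; exact filter_subset _ _
  have hRb := hrich t hT2' P hpin R hRP (fun p hp => by
    rw [hR, mem_filter] at hp
    exact hp.2)
  have hRb2 : (R.card : ℝ) ≤ (t:ℝ) ^ ((d:ℝ) / 2 - σ) := hRb.trans (hev t hT3')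
  have hsub : P \ R ⊆ P := sdiff_subset
  have hpin' : ∀ p ∈ P \ R, ((P \ R).image (dist p)).card ≤ t + 1 := fun p hp =>
    (card_le_card (image_subset_image hsub)).trans (hpin p (hsub hp))
  have hline : LineBd (P \ R) ((t:ℝ) ^ (1 - ρ)) := by
    intro x v hv
    rcases Set.eq_empty_or_nonempty
      {p : EuclideanSpace ℝ (Fin d) | p ∈ P \ R ∧ ∃ r : ℝ, p = x + r • v} with h | ⟨p₀, hp₀, r₀, hr₀⟩
    · rw [h, Set.ncard_empty]
      have : 0 < (t:ℝ) ^ (1 - ρ) := Real.rpow_pos_of_pos (by linarith only [hT]) _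
      push_cast
      exact this.le
    · have hp₀P := (mem_sdiff.mp hp₀).1
      have hp₀R := (mem_sdiff.mp hp₀).2
      have hvn : ‖v‖ ≠ 0 := norm_ne_zero_iff.mpr hv
      have hu : ‖(‖v‖⁻¹ • v : EuclideanSpace ℝ (Fin d))‖ = 1 := by
        rw [norm_smul, norm_inv, norm_norm, inv_mul_cancel₀ hvn]
      have h1 : ¬ ((t:ℝ) ^ (1 - ρ) ≤ (onLine P p₀ (‖v‖⁻¹ • v)).card) := by
        intro h2
        apply hp₀R
        rw [hR, mem_filter]
        exact ⟨hp₀P, _, hu, h2⟩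
      push Not at h1
      refine le_trans ?_ h1.le
      have h2 : {p : EuclideanSpace ℝ (Fin d) | p ∈ P \ R ∧ ∃ r : ℝ, p = x + r • v} ⊆
          ((onLine P p₀ (‖v‖⁻¹ • v) : Finset (EuclideanSpace ℝ (Fin d))) : Set _) := by
        rintro p ⟨hp, r, hr⟩
        rw [mem_coe, mem_onLine]
        refine ⟨hsub hp, (r - r₀) * ‖v‖, ?_⟩
        rw [smul_smul, mul_assoc, mul_inv_cancel₀ hvn, mul_one, hr, hr₀, sub_smul]
        abel
      have h3 := Set.ncard_le_ncard h2 (Finset.finite_toSet _)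
      rw [Set.ncard_coe_finset] at h3
      exact_mod_cast h3
  have hfl := hflat t ht1 (P \ R) (fun p hp => by convert hpin' p hp) hline
  have hmain := hcore' t hT1' e he1 heT (P \ R) f hpin' hf he (fun p hp => hP p (hsub hp)) hfl
  have hcard : P.card ≤ (P \ R).card + R.card := by
    have h1 := Finset.card_sdiff_add_card_inter P R
    have h2 : (P ∩ R).card ≤ R.card := card_le_card inter_subset_right
    omega
  have hcard' : (P.card : ℝ) ≤ (P \ R).card + R.card := by exact_mod_cast hcard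
  linarith only [hcard', hmain, hRb2]

/-- the distances from `p` as a set and as a finite set -/
theorem pins_eq {d : ℕ} (P : Finset (EuclideanSpace ℝ (Fin d))) (p : EuclideanSpace ℝ (Fin d)) :
    open scoped Classical in
    {r : ℝ | ∃ q ∈ P, q ≠ p ∧ r = dist p q}.ncard = ((P.erase p).image (dist p)).card := by
  classical
  have h1 : {r : ℝ | ∃ q ∈ P, q ≠ p ∧ r = dist p q} =
      (((P.erase p).image (dist p) : Finset ℝ) : Set ℝ) := by
    ext r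
    simp only [Set.mem_ofPred_eq, Finset.coe_image, Set.mem_image, Finset.mem_coe,
      Finset.mem_erase]
    constructor
    · rintro ⟨q, hq, hne, rfl⟩
      exact ⟨q, ⟨hne, hq⟩, rfl⟩
    · rintro ⟨q, ⟨hne, hq⟩, rfl⟩
      exact ⟨q, hq, hne, rfl⟩
  rw [h1, Set.ncard_coe_finset]

open scoped Classical in
theorem pins_pos {d : ℕ} (P : Finset (EuclideanSpace ℝ (Fin d))) (hP : 2 ≤ P.card)
    (p : EuclideanSpace ℝ (Fin d)) (hp : p ∈ P) : 1 ≤ ((P.erase p).image (dist p)).card := by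
  rw [Nat.one_le_iff_ne_zero, ← Nat.pos_iff_ne_zero, Finset.card_pos, Finset.image_nonempty,
    ← Finset.card_pos, Finset.card_erase_of_mem hp]
  omega

open scoped Classical in
theorem main_finset (d : ℕ) (hd : 3 ≤ d) : ∃ η : ℝ, 0 < η ∧ η ≤ 1 ∧ ∃ c : ℝ, 0 < c ∧
    ∀ (P : Finset (EuclideanSpace ℝ (Fin d))) (f : MvPolynomial (Fin d) ℝ), 2 ≤ P.card → f ≠ 0 →
      (f.totalDegree : ℝ) ≤ (P.card : ℝ) ^ η →
      (P.card : ℝ) ^ (1 - η) ≤
        ((P.filter (fun p => MvPolynomial.eval (fun i => p i) f = 0)).card : ℝ) →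
      ∃ p ∈ P, MvPolynomial.eval (fun i => p i) f = 0 ∧
        c * (P.card : ℝ) ^ (2 / (d:ℝ) + η) ≤ (((P.erase p).image (dist p)).card : ℝ) := by
  obtain ⟨σ, η₀, T0, hσ0, hσ4, hη₀, hT0, hyp⟩ := hyp_bound d hd
  obtain ⟨Cn, hCn0, hCn⟩ := main_pinned d 1 one_pos
  have hD : (3:ℝ) ≤ d := by exact_mod_cast hd
  have hd0 : (0:ℝ) < d := by linarith only [hD]
  have hd1 : (0:ℝ) < (d:ℝ) + 1 := by linarith only [hD]
  obtain ⟨α, hα⟩ : ∃ α : ℝ, α = (d:ℝ) / 2 - σ := ⟨_, rfl⟩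
  have hα0 : 0 < α := by linarith only [hα, hD, hσ4]
  obtain ⟨η, hη⟩ : ∃ η : ℝ, η = min (min (1 / 4) (σ / (d:ℝ) ^ 2)) (η₀ / (4 * ((d:ℝ) + 1))) := ⟨_, rfl⟩
  have hη0 : 0 < η := by
    rw [hη]; exact lt_min (lt_min (by norm_num) (by positivity)) (by positivity)
  have hη4 : η ≤ 1 / 4 := by rw [hη]; exact (min_le_left _ _).trans (min_le_left _ _)
  have hησ : η * (d:ℝ) ^ 2 ≤ σ := by
    have h1 : η ≤ σ / (d:ℝ) ^ 2 := by rw [hη]; exact (min_le_left _ _).trans (min_le_right _ _)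
    exact (le_div_iff₀ (by positivity)).mp h1
  have hηη : η * (4 * ((d:ℝ) + 1)) ≤ η₀ := by
    have h1 : η ≤ η₀ / (4 * ((d:ℝ) + 1)) := by rw [hη]; exact min_le_right _ _
    exact (le_div_iff₀ (by positivity)).mp h1
  -- the exponent
  have hexp : 2 / (d:ℝ) + η ≤ (1 - η) / α := by
    rw [le_div_iff₀ hα0, hα]
    have h1 : (2 / (d:ℝ) + η) * ((d:ℝ) / 2 - σ) = 1 - 2 * σ / d + η * d / 2 - η * σ := by
      field_simp
      ring
    rw [h1]
    have h2 : η * d / 2 + η ≤ 2 * σ / d := by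
      rw [le_div_iff₀ hd0]
      have h3 : η * d * 3 ≤ η * d * d := mul_le_mul_of_nonneg_left hD (mul_nonneg hη0.le hd0.le)
      have h4 : η * (d:ℝ) ^ 2 = η * d * d := by ring
      rw [h4] at hησ
      have h5 : (η * d / 2 + η) * d = η * d * d / 2 + η * d := by ring
      rw [h5]
      linarith only [h3, hησ, hσ0]
    have h3 : 0 ≤ η * σ := mul_nonneg hη0.le hσ0.le
    linarith only [h2, h3]
  obtain ⟨M, hM⟩ : ∃ M : ℝ, M = (Cn + 1) * T0 ^ ((d:ℝ) + 1) := ⟨_, rfl⟩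
  have hTd : 1 ≤ T0 ^ ((d:ℝ) + 1) := Real.one_le_rpow hT0 (by linarith only [hd1])
  have hM1 : 1 ≤ M := by
    rw [hM]
    nlinarith only [hTd, hCn0]
  have h4α : 0 < (4:ℝ) ^ (-(1 / α)) := Real.rpow_pos_of_pos (by norm_num) _
  refine ⟨η, hη0, by linarith only [hη4], min (1 / M ^ 4) ((4:ℝ) ^ (-(1 / α))),
    lt_min (by positivity) h4α, ?_⟩
  intro P f hP hf hdeg hcard
  have hn1 : (1:ℝ) ≤ P.card := by exact_mod_cast (show 1 ≤ P.card by omega)
  have hn0 : (0:ℝ) < P.card := by linarith only [hn1]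
  obtain ⟨Q, hQ⟩ : ∃ Q, Q = P.filter (fun p => MvPolynomial.eval (fun i => p i) f = 0) := ⟨_, rfl⟩
  rw [← hQ] at hcard
  have hQP : Q ⊆ P := by rw [hQ]; exact filter_subset _ _
  have hQne : Q.Nonempty := by
    rw [← Finset.card_pos]
    have h1 : 0 < (P.card : ℝ) ^ (1 - η) := Real.rpow_pos_of_pos hn0 _
    have h2 : (0:ℝ) < Q.card := lt_of_lt_of_le h1 hcard
    exact_mod_cast h2
  obtain ⟨p, hpQ, hmax⟩ := Q.exists_max_image (fun p => ((P.erase p).image (dist p)).card) hQne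
  have hpf : p ∈ P ∧ MvPolynomial.eval (fun i => p i) f = 0 := by
    rw [hQ, mem_filter] at hpQ; exact hpQ
  refine ⟨p, hpf.1, hpf.2, ?_⟩
  set t := ((P.erase p).image (dist p)).card with ht
  have ht1 : 1 ≤ t := pins_pos P hP p hpf.1
  have htr : (1:ℝ) ≤ t := by exact_mod_cast ht1
  have ht0 : (0:ℝ) < t := by linarith only [htr]
  have htp : ∀ q ∈ Q, (Q.image (dist q)).card ≤ t + 1 := by
    intro q hq
    have hqP := hQP hq
    have h1 : P.image (dist q) = insert (dist q q) ((P.erase q).image (dist q)) := by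
      rw [← Finset.image_insert, Finset.insert_erase hqP]
    have h2 : (P.image (dist q)).card ≤ t + 1 := by
      rw [h1]
      exact (Finset.card_insert_le _ _).trans (Nat.add_le_add_right (hmax q hq) 1)
    exact (card_le_card (image_subset_image hQP)).trans h2
  have hgen : (Q.card : ℝ) ≤ Cn * (t:ℝ) ^ ((d:ℝ) + 1) := by
    refine (hCn t ht1 Q (fun q hq => by convert htp q hq)).trans ?_
    apply mul_le_mul_of_nonneg_left _ hCn0.le
    apply Real.rpow_le_rpow_of_exponent_le htr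
    linarith only [fe_le_self d]
  -- small cardinality
  have hsmall : (P.card : ℝ) ^ ((1:ℝ) / 2) ≤ M →
      min (1 / M ^ 4) ((4:ℝ) ^ (-(1 / α))) * (P.card : ℝ) ^ (2 / (d:ℝ) + η) ≤ t := by
    intro h
    have h1 : (P.card : ℝ) ≤ M ^ 2 := by
      have h2 : ((P.card : ℝ) ^ ((1:ℝ) / 2)) ^ 2 ≤ M ^ 2 :=
        pow_le_pow_left₀ (Real.rpow_nonneg hn0.le _) h 2
      rwa [← Real.rpow_natCast, ← Real.rpow_mul hn0.le,
        show (1:ℝ) / 2 * ((2:ℕ):ℝ) = 1 by norm_num, Real.rpow_one] at h2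
    have h2 : (P.card : ℝ) ^ (2 / (d:ℝ) + η) ≤ (P.card : ℝ) ^ (2:ℝ) := by
      apply Real.rpow_le_rpow_of_exponent_le hn1
      have : 2 / (d:ℝ) ≤ 1 := by rw [div_le_one hd0]; linarith only [hD]
      linarith only [this, hη4]
    have h3 : (P.card : ℝ) ^ (2:ℝ) ≤ M ^ 4 := by
      have h4 : (P.card : ℝ) ^ (2:ℝ) = (P.card : ℝ) ^ 2 := by
        rw [← Real.rpow_natCast]; norm_num
      rw [h4]
      calc (P.card : ℝ) ^ 2 ≤ (M ^ 2) ^ 2 := pow_le_pow_left₀ hn0.le h1 2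
        _ = M ^ 4 := by ring
    have hM4 : 0 < M ^ 4 := by positivity
    calc min (1 / M ^ 4) ((4:ℝ) ^ (-(1 / α))) * (P.card : ℝ) ^ (2 / (d:ℝ) + η)
        ≤ 1 / M ^ 4 * M ^ 4 :=
          mul_le_mul (min_le_left _ _) (h2.trans h3) (Real.rpow_nonneg hn0.le _) (by positivity)
      _ = 1 := by field_simp
      _ ≤ t := htr
  have hhalf : (P.card : ℝ) ^ ((1:ℝ) / 2) ≤ (P.card : ℝ) ^ (1 - η) :=
    Real.rpow_le_rpow_of_exponent_le hn1 (by linarith only [hη4])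
  by_cases hcase1 : T0 ≤ t
  swap
  · push Not at hcase1
    apply hsmall
    have h1 : (t:ℝ) ^ ((d:ℝ) + 1) ≤ T0 ^ ((d:ℝ) + 1) :=
      Real.rpow_le_rpow ht0.le hcase1.le hd1.le
    have h2 : Cn * (t:ℝ) ^ ((d:ℝ) + 1) ≤ Cn * T0 ^ ((d:ℝ) + 1) :=
      mul_le_mul_of_nonneg_left h1 hCn0.le
    rw [hM]
    linarith only [hhalf, hcard, hgen, h2, hTd]
  obtain ⟨e, he⟩ : ∃ e : ℕ, e = max 1 f.totalDegree := ⟨_, rfl⟩
  have he1 : 1 ≤ e := by rw [he]; exact le_max_left _ _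
  have hen : (e:ℝ) ≤ (P.card : ℝ) ^ η := by
    rw [he]; push_cast
    exact max_le (Real.one_le_rpow hn1 hη0.le) hdeg
  by_cases hcase2 : (e:ℝ) ≤ (t:ℝ) ^ η₀
  swap
  · push Not at hcase2
    apply hsmall
    have h1 : (t:ℝ) ^ η₀ ≤ (P.card : ℝ) ^ η := hcase2.le.trans hen
    have h2 : (t:ℝ) ≤ (P.card : ℝ) ^ (η / η₀) := by
      have h3 : ((t:ℝ) ^ η₀) ^ (1 / η₀) ≤ ((P.card : ℝ) ^ η) ^ (1 / η₀) :=
        Real.rpow_le_rpow (Real.rpow_nonneg ht0.le _) h1 (by positivity)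
      rwa [← Real.rpow_mul ht0.le, mul_one_div_cancel hη₀.ne', Real.rpow_one,
        ← Real.rpow_mul hn0.le, mul_one_div] at h3
    have h3 : (t:ℝ) ^ ((d:ℝ) + 1) ≤ (P.card : ℝ) ^ ((1:ℝ) / 4) := by
      calc (t:ℝ) ^ ((d:ℝ) + 1) ≤ ((P.card : ℝ) ^ (η / η₀)) ^ ((d:ℝ) + 1) :=
            Real.rpow_le_rpow ht0.le h2 hd1.le
        _ = (P.card : ℝ) ^ (η / η₀ * ((d:ℝ) + 1)) := by rw [← Real.rpow_mul hn0.le]
        _ ≤ (P.card : ℝ) ^ ((1:ℝ) / 4) := by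
            apply Real.rpow_le_rpow_of_exponent_le hn1
            rw [div_mul_eq_mul_div, div_le_iff₀ hη₀]
            linarith only [hηη]
    have h4 : (P.card : ℝ) ^ (1 - η) ≤ Cn * (P.card : ℝ) ^ ((1:ℝ) / 4) :=
      (hcard.trans hgen).trans (mul_le_mul_of_nonneg_left h3 hCn0.le)
    have h5 : (P.card : ℝ) ^ ((1:ℝ) / 2) * (P.card : ℝ) ^ ((1:ℝ) / 4) ≤ (P.card : ℝ) ^ (1 - η) := by
      rw [← Real.rpow_add hn0]
      exact Real.rpow_le_rpow_of_exponent_le hn1 (by linarith only [hη4])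
    have h6 : 0 < (P.card : ℝ) ^ ((1:ℝ) / 4) := Real.rpow_pos_of_pos hn0 _
    have h7 := le_of_mul_le_mul_right (h5.trans h4) h6
    refine h7.trans ?_
    rw [hM]
    nlinarith only [hTd, hCn0]
  have hfin := hyp t hcase1 e he1 hcase2 Q f htp hf (by rw [he]; exact le_max_right _ _)
    (fun q hq => by rw [hQ, mem_filter] at hq; exact hq.2)
  rw [← hα] at hfin
  have hp0 : 0 < (t:ℝ) ^ α := Real.rpow_pos_of_pos ht0 _
  have h1 : (P.card : ℝ) ^ (1 - η) / 4 ≤ (t:ℝ) ^ α := by linarith only [hcard, hfin, hp0]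
  have h2 : ((P.card : ℝ) ^ (1 - η) / 4) ^ (1 / α) ≤ t := by
    have h3 := Real.rpow_le_rpow (z := 1 / α) (by positivity) h1 (by positivity)
    rwa [← Real.rpow_mul ht0.le, mul_one_div_cancel hα0.ne', Real.rpow_one] at h3
  refine le_trans ?_ h2
  have h3 : ((P.card : ℝ) ^ (1 - η) / 4) ^ (1 / α) =
      (4:ℝ) ^ (-(1 / α)) * (P.card : ℝ) ^ ((1 - η) / α) := by
    rw [Real.div_rpow (by positivity) (by norm_num), ← Real.rpow_mul hn0.le, mul_one_div,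
      Real.rpow_neg (by norm_num), div_eq_inv_mul]
  rw [h3]
  exact mul_le_mul (min_le_right _ _) (Real.rpow_le_rpow_of_exponent_le hn1 hexp)
    (Real.rpow_nonneg hn0.le _) h4α.le

/-- **Sets on hypersurfaces.** -/
theorem hypersurfaces (d : ℕ) (hd : 3 ≤ d) : ∃ η : ℝ, 0 < η ∧ ∀ K : ℝ, ∃ c : ℝ, 0 < c ∧
    ∀ (P : Finset (EuclideanSpace ℝ (Fin d))) (f : MvPolynomial (Fin d) ℝ), 2 ≤ P.card → f ≠ 0 →
      (f.totalDegree : ℝ) ≤ K * (P.card : ℝ) ^ η →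
      (P.card : ℝ) ^ (1 - η) ≤
        K * ({p : EuclideanSpace ℝ (Fin d) | p ∈ P ∧
          MvPolynomial.eval (fun i => p i) f = 0}.ncard : ℝ) →
      ∃ p ∈ P, MvPolynomial.eval (fun i => p i) f = 0 ∧
        c * (P.card : ℝ) ^ (2 / (d:ℝ) + η) ≤
          ({r : ℝ | ∃ q ∈ P, q ≠ p ∧ r = dist p q}.ncard : ℝ) := by
  classical
  obtain ⟨η₁, hη₁, hη₁1, c₁, hc₁, hmain⟩ := main_finset d hd
  have hD : (3:ℝ) ≤ d := by exact_mod_cast hd
  have hd0 : (0:ℝ) < d := by linarith only [hD]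
  obtain ⟨η, hη⟩ : ∃ η : ℝ, η = η₁ / 2 := ⟨_, rfl⟩
  have hη0 : 0 < η := by linarith only [hη, hη₁]
  refine ⟨η, hη0, ?_⟩
  intro K
  obtain ⟨L, hL⟩ : ∃ L : ℝ, L = max 1 K := ⟨_, rfl⟩
  have hL1 : 1 ≤ L := by rw [hL]; exact le_max_left _ _
  have hLK : K ≤ L := by rw [hL]; exact le_max_right _ _
  obtain ⟨N, hN⟩ : ∃ N : ℝ, N = L ^ (1 / η) := ⟨_, rfl⟩
  have hN1 : 1 ≤ N := by rw [hN]; exact Real.one_le_rpow hL1 (by positivity)
  refine ⟨min c₁ (1 / N ^ 2), lt_min hc₁ (by positivity), ?_⟩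
  intro P f hP hf hdeg hcard
  have hn1 : (1:ℝ) ≤ P.card := by exact_mod_cast (show 1 ≤ P.card by omega)
  have hn0 : (0:ℝ) < P.card := by linarith only [hn1]
  obtain ⟨Q, hQ⟩ : ∃ Q, Q = P.filter (fun p => MvPolynomial.eval (fun i => p i) f = 0) := ⟨_, rfl⟩
  have hQc : {p : EuclideanSpace ℝ (Fin d) | p ∈ P ∧
      MvPolynomial.eval (fun i => p i) f = 0}.ncard = Q.card := by
    have h1 : {p : EuclideanSpace ℝ (Fin d) | p ∈ P ∧
        MvPolynomial.eval (fun i => p i) f = 0} = (Q : Set (EuclideanSpace ℝ (Fin d))) := by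
      ext p
      rw [hQ, mem_coe, mem_filter]
      rfl
    rw [h1, Set.ncard_coe_finset]
  rw [hQc] at hcard
  have hQ0 : (0:ℝ) ≤ Q.card := Nat.cast_nonneg _
  have hcard' : (P.card : ℝ) ^ (1 - η) ≤ L * Q.card :=
    hcard.trans (mul_le_mul_of_nonneg_right hLK hQ0)
  have hpη : 0 < (P.card : ℝ) ^ η := Real.rpow_pos_of_pos hn0 _
  by_cases hbig : L ≤ (P.card : ℝ) ^ η
  · have h1 : (f.totalDegree : ℝ) ≤ (P.card : ℝ) ^ η₁ := by
      have h2 : (P.card : ℝ) ^ η₁ = (P.card : ℝ) ^ η * (P.card : ℝ) ^ η := by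
        rw [← Real.rpow_add hn0]; congr 1; rw [hη]; ring
      rw [h2]
      exact hdeg.trans (mul_le_mul_of_nonneg_right (hLK.trans hbig) hpη.le)
    have h2 : (P.card : ℝ) ^ (1 - η₁) ≤ Q.card := by
      have h3 : (P.card : ℝ) ^ (1 - η) = (P.card : ℝ) ^ η * (P.card : ℝ) ^ (1 - η₁) := by
        rw [← Real.rpow_add hn0]; congr 1; rw [hη]; ring
      rw [h3] at hcard'
      have h4 : (P.card : ℝ) ^ η * (P.card : ℝ) ^ (1 - η₁) ≤ (P.card : ℝ) ^ η * Q.card :=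
        hcard'.trans (mul_le_mul_of_nonneg_right hbig hQ0)
      exact le_of_mul_le_mul_left h4 hpη
    obtain ⟨p, hp, hpf, hp2⟩ := hmain P f hP hf h1 (by rw [← hQ]; exact h2)
    refine ⟨p, hp, hpf, ?_⟩
    rw [pins_eq]
    refine le_trans ?_ hp2
    apply mul_le_mul (min_le_left _ _) _ (Real.rpow_nonneg hn0.le _) hc₁.le
    apply Real.rpow_le_rpow_of_exponent_le hn1
    linarith only [hη, hη₁]
  · push Not at hbig
    have h1 : (P.card : ℝ) ≤ N := by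
      have h2 : ((P.card : ℝ) ^ η) ^ (1 / η) ≤ L ^ (1 / η) :=
        Real.rpow_le_rpow hpη.le hbig.le (by positivity)
      rwa [← Real.rpow_mul hn0.le, mul_one_div_cancel hη0.ne', Real.rpow_one, ← hN] at h2
    have hQne : Q.Nonempty := by
      rw [← Finset.card_pos]
      by_contra hcon
      have h2 : Q.card = 0 := by omega
      rw [h2] at hcard'
      push_cast at hcard'
      rw [mul_zero] at hcard'
      have h3 : 0 < (P.card : ℝ) ^ (1 - η) := Real.rpow_pos_of_pos hn0 _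
      linarith only [hcard', h3]
    obtain ⟨p, hpQ⟩ := hQne
    rw [hQ, mem_filter] at hpQ
    refine ⟨p, hpQ.1, hpQ.2, ?_⟩
    rw [pins_eq]
    have h2 : (1:ℝ) ≤ ((P.erase p).image (dist p)).card := by exact_mod_cast pins_pos P hP p hpQ.1
    refine le_trans ?_ h2
    have h3 : (P.card : ℝ) ^ (2 / (d:ℝ) + η) ≤ N ^ 2 := by
      calc (P.card : ℝ) ^ (2 / (d:ℝ) + η) ≤ (P.card : ℝ) ^ (2:ℝ) := by
            apply Real.rpow_le_rpow_of_exponent_le hn1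
            have : 2 / (d:ℝ) ≤ 1 := by rw [div_le_one hd0]; linarith only [hD]
            linarith only [this, hη, hη₁1]
        _ = (P.card : ℝ) ^ 2 := by rw [← Real.rpow_natCast]; norm_num
        _ ≤ N ^ 2 := pow_le_pow_left₀ hn0.le h1 2
    calc min c₁ (1 / N ^ 2) * (P.card : ℝ) ^ (2 / (d:ℝ) + η) ≤ 1 / N ^ 2 * N ^ 2 :=
          mul_le_mul (min_le_right _ _) h3 (Real.rpow_nonneg hn0.le _) (by positivity)
      _ = 1 := by field_simp

end Vale.Agent.P054.H978
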